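import Vale.Agent.P076.H874.Sel

/-!
# P076 / BG / SEL, part 5 (helper874): `stSEL : StSEL`
-/

set_option autoImplicit false

namespace Vale.Agent.P076.H874

open Vale.Agent.P076.H732

theorem stSEL : StSEL := by
  classical
  refine ⟨40, 1 / 9, by norm_num, by norm_num, ?_⟩
  intro E N hE0 hE1 hEN
  refine ⟨N + 10, ?_⟩
  intro m kp d hm hkp ι P Th v μ hC
  have hN : 1 ≤ N := by
    by_contra h
    have : N = 0 := by omega
    rw [this] at hEN
    simp at hEN
    linarith
  have hN1 : (1:ℝ) ≤ N := by exact_mod_cast hN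
  have hm2 : (10:ℝ) ≤ m := by
    have : 10 ≤ m := by omega
    exact_mod_cast this
  obtain ⟨t₃, h3, t₁, h1, t₂, h2, hA⟩ := exists_frame hC hEN hm hN
  set S : ι → Finset Z3 := fun t4 => P.filter fun p => 0 < pm Th μ p ∧ Gd E d N m Th v μ p t₃ t₁ t₂ t4 with hS
  have hcard : ∀ t, ∑ p ∈ P, ind (0 < pm Th μ p ∧ Gd E d N m Th v μ p t₃ t₁ t₂ t) = ((S t).card : ℝ) :=
    fun t => sum_ind P _
  simp only [hcard] at hA
  set lam := e2 m ((3 * kp - 11 * E) * N) with hlam
  have hlam0 : 0 < lam := e2_pos _ _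
  set J := Th.filter fun t => lam ≤ ((S t).card : ℝ) with hJ
  have hPc : (P.card : ℝ) ≤ e2 m ((3 * kp + E) * N) := by
    have := hC.c1 N le_rfl
    have e : P.image (dv ((N - N) * m)) = P := by
      have : dv ((N - N) * m) = id := by
        funext p
        rw [Nat.sub_self, zero_mul]
        unfold dv
        simp
      rw [this, Finset.image_id]
    rw [e, e2_eq (m := m) (y := (3 * kp + E) * N) (by ring)] at this
    exact this
  have hTc : (Th.card : ℝ) ≤ e2 m ((d + E) * N) := by
    have := hC.th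
    rwa [e2_eq (m := m) (y := (d + E) * N) (by ring)] at this
  -- the mass of `J`
  have hJs : e2 m ((3 * kp + d - 9 * E) * N) / 2 ≤ ∑ t ∈ J, ((S t).card : ℝ) := by
    have e := Finset.sum_filter_add_sum_filter_not Th (fun t => lam ≤ ((S t).card : ℝ)) (fun t => ((S t).card : ℝ))
    have h4 : ∑ t ∈ Th.filter (fun t => ¬ lam ≤ ((S t).card : ℝ)), ((S t).card : ℝ) ≤ (Th.card : ℝ) * lam := by
      calc _ ≤ ∑ t ∈ Th.filter (fun t => ¬ lam ≤ ((S t).card : ℝ)), lam :=
            Finset.sum_le_sum fun t ht => (not_le.1 (Finset.mem_filter.1 ht).2).le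
        _ = ((Th.filter (fun t => ¬ lam ≤ ((S t).card : ℝ))).card : ℝ) * lam := by rw [Finset.sum_const, nsmul_eq_mul]
        _ ≤ (Th.card : ℝ) * lam := by
            gcongr
            exact Finset.filter_subset _ _
    have h5 : (Th.card : ℝ) * lam ≤ e2 m ((3 * kp + d - 9 * E) * N) / 2 := by
      have h6 : (Th.card : ℝ) * lam ≤ e2 m ((d + E) * N) * lam := mul_le_mul_of_nonneg_right hTc hlam0.le
      rw [hlam, ← e2_add] at h6
      have h7 := mul_e2_le (m := m) 1 ((d + E) * N + (3 * kp - 11 * E) * N) ((3 * kp + d - 9 * E) * N)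
        (by push_cast; nlinarith)
      rw [pow_one] at h7
      rw [hlam]
      linarith
    linarith
  have hJc : e2 m ((d - 11 * E) * N) ≤ (J.card : ℝ) := by
    have h4 : ∑ t ∈ J, ((S t).card : ℝ) ≤ (J.card : ℝ) * (P.card : ℝ) := by
      rw [← nsmul_eq_mul, ← Finset.sum_const]
      refine Finset.sum_le_sum fun t _ => ?_
      exact_mod_cast Finset.card_le_card (Finset.filter_subset _ _)
    have h5 : (J.card : ℝ) * (P.card : ℝ) ≤ (J.card : ℝ) * e2 m ((3 * kp + E) * N) := by gcongr
    have h6 : e2 m ((d - 11 * E) * N) * e2 m ((3 * kp + E) * N) ≤ e2 m ((3 * kp + d - 9 * E) * N) / 2 := by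
      rw [← e2_add]
      have h7 := mul_e2_le (m := m) 1 ((d - 11 * E) * N + (3 * kp + E) * N) ((3 * kp + d - 9 * E) * N)
        (by push_cast; nlinarith)
      rw [pow_one] at h7
      linarith
    have h8 : e2 m ((d - 11 * E) * N) * e2 m ((3 * kp + E) * N) ≤ (J.card : ℝ) * e2 m ((3 * kp + E) * N) := by linarith
    exact le_of_mul_le_mul_right h8 (e2_pos _ _)
  have hJne : J.Nonempty := by
    rw [← Finset.card_pos]
    have : (0:ℝ) < J.card := lt_of_lt_of_le (e2_pos _ _) hJc
    exact_mod_cast this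
  -- a point of `S t`
  have hSne : ∀ t ∈ J, ∃ p ∈ P, 0 < pm Th μ p ∧ Gd E d N m Th v μ p t₃ t₁ t₂ t := by
    intro t ht
    have h4 := (Finset.mem_filter.1 ht).2
    have : (0:ℝ) < (S t).card := lt_of_lt_of_le hlam0 h4
    have : 0 < (S t).card := by exact_mod_cast this
    obtain ⟨p, hp⟩ := Finset.card_pos.1 this
    rw [hS, Finset.mem_filter] at hp
    exact ⟨p, hp.1, hp.2⟩
  have hr : (2:ℝ) ^ (-(40 * E * N * m)) ≤ e2 m (-(E * N)) ^ 2 := by
    rw [e2_pow, e2_eq (m := m) (y := -(40 * E * N)) (by ring)]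
    exact e2_le (by push_cast; nlinarith)
  refine ⟨t₁, t₂, t₃, J, S, h1, h2, h3, Finset.filter_subset _ _, hJne, ?_, ?_, ?_⟩
  · obtain ⟨t, ht⟩ := hJne
    obtain ⟨p, hpP, hp, hG⟩ := hSne t ht
    exact hr.trans hG.1
  · intro t ht
    obtain ⟨p, hpP, hp, hG⟩ := hSne t ht
    refine ⟨hr.trans hG.2.1, hr.trans hG.2.2.1, ?_, ?_⟩
    · refine le_trans ?_ (Finset.mem_filter.1 ht).2
      rw [hlam, e2_eq (m := m) (y := (3 * kp - 40 * E) * N) (by ring)]
      exact e2_le (by nlinarith)
    · intro p hp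
      rw [hS, Finset.mem_filter] at hp
      obtain ⟨hpP, hp0, hG⟩ := hp
      have hne : ∀ θ, rh Th μ p θ ≠ 0 → μ p θ ≠ 0 := fun θ h h0 => h (by unfold rh; rw [h0, zero_div])
      refine ⟨hpP, hne _ hG.2.2.2.2.2.1, hne _ hG.2.2.2.2.2.2.1, hne _ hG.2.2.2.2.2.2.2, hne _ ?_⟩
      exact (lt_of_lt_of_le (e2_pos _ _) hG.2.2.2.2.1).ne'
  · -- Frostman
    intro j hj ϑ
    set Js := J.filter fun t => |nc ϑ (v t - v t₃)| ≤ (2:ℝ) ^ (-((j : ℝ) * m)) with hJs'
    set τ := e2 m (-(1 / 9) * j + 8 * (E * N)) with hτ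
    have h4 : (Js.card : ℝ) * lam ≤ ∑ t ∈ Js, ((S t).card : ℝ) := by
      rw [← nsmul_eq_mul, ← Finset.sum_const]
      exact Finset.sum_le_sum fun t ht => (Finset.mem_filter.1 (Finset.mem_filter.1 ht).1).2
    have h5 : ∑ t ∈ Js, ((S t).card : ℝ) = ∑ p ∈ P, ((Js.filter fun t => p ∈ S t).card : ℝ) := by
      have e1 : ∀ t ∈ Js, ((S t).card : ℝ) = ∑ p ∈ P, ind (p ∈ S t) := by
        intro t _
        rw [sum_ind]
        congr 2
        ext p
        simp only [Finset.mem_filter, hS]
        tauto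
      have e2' : ∀ p ∈ P, ((Js.filter fun t => p ∈ S t).card : ℝ) = ∑ t ∈ Js, ind (p ∈ S t) := by
        intro p _
        rw [sum_ind]
      rw [Finset.sum_congr rfl e1, Finset.sum_congr rfl e2', Finset.sum_comm]
    have h6 : ∀ p ∈ P, ((Js.filter fun t => p ∈ S t).card : ℝ) ≤ τ * e2 m ((d + 2 * E) * N) := by
      intro p hpP
      by_cases hne : (Js.filter fun t => p ∈ S t).Nonempty
      · obtain ⟨a, ha⟩ := hne
        rw [Finset.mem_filter] at ha
        obtain ⟨haJ, haS⟩ := ha
        have haS' := haS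
        rw [hS, Finset.mem_filter] at haS'
        obtain ⟨-, hp0, hG⟩ := haS'
        have hpr := pr_of hC hp0
        have hl := hG.2.2.2.1 j hj
        unfold Hv at hl
        rw [not_lt] at hl
        have haT : a ∈ Th := (Finset.mem_filter.1 (Finset.mem_filter.1 haJ).1).1
        have hv : ∀ t ∈ Th, ∀ i, |v t i| ≤ e2 m (E * N) := by
          intro t ht i
          have := hC.vb t ht i
          rwa [e2_eq (m := m) (y := E * N) (by ring)] at this
        -- the directions of the strip are in the strip of the pair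
        have h7 : ((Js.filter fun t => p ∈ S t).card : ℝ) * e2 m (-((d + 2 * E) * N)) ≤
            sm Th (rh Th μ p) v (e2 m (-j + 2 * (E * N))) t₃ a := by
          unfold sm
          rw [Ex_ind, ← nsmul_eq_mul, ← Finset.sum_const]
          calc ∑ t ∈ Js.filter (fun t => p ∈ S t), e2 m (-((d + 2 * E) * N))
              ≤ ∑ t ∈ Js.filter (fun t => p ∈ S t), rh Th μ p t := by
                refine Finset.sum_le_sum fun t ht => ?_
                have h8 := (Finset.mem_filter.1 ht).2
                rw [hS, Finset.mem_filter] at h8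
                exact h8.2.2.2.2.2.2.1
            _ ≤ _ := by
                refine Finset.sum_le_sum_of_subset_of_nonneg ?_ fun t _ _ => hpr.nn t
                intro t ht
                rw [Finset.mem_filter] at ht
                have htJ := Finset.mem_filter.1 ht.1
                have htT : t ∈ Th := (Finset.mem_filter.1 htJ.1).1
                rw [Finset.mem_filter]
                refine ⟨htT, ?_⟩
                have g1 := (Finset.mem_filter.1 haJ).2
                have g2 := htJ.2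
                rw [e2_eq (m := m) (y := -(j:ℝ)) (by ring)] at g1 g2
                have g3 := cr_strip (v a - v t₃) (v t - v t₃) ϑ (2 * e2 m (E * N)) (e2 m (-(j:ℝ))) g1 g2
                  (sub_le (hv a haT) (hv t₃ h3)) (sub_le (hv t htT) (hv t₃ h3))
                refine g3.trans ?_
                have g4 := mul_e2_le (m := m) 3 (E * N + -(j:ℝ)) (-j + 2 * (E * N)) (by push_cast; nlinarith)
                rw [e2_add m (E * N)] at g4
                linarith
        have h8 : ((Js.filter fun t => p ∈ S t).card : ℝ) * e2 m (-((d + 2 * E) * N)) ≤ τ := h7.trans hl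
        have h9 := e2_neg m ((d + 2 * E) * N)
        calc ((Js.filter fun t => p ∈ S t).card : ℝ)
            = ((Js.filter fun t => p ∈ S t).card : ℝ) * e2 m (-((d + 2 * E) * N)) * e2 m ((d + 2 * E) * N) := by
              rw [mul_assoc, h9, mul_one]
          _ ≤ τ * e2 m ((d + 2 * E) * N) := mul_le_mul_of_nonneg_right h8 (e2_pos _ _).le
      · rw [Finset.not_nonempty_iff_eq_empty.1 hne]
        have := e2_pos m ((d + 2 * E) * N)
        have := e2_pos m (-(1 / 9) * j + 8 * (E * N))
        simp only [Finset.card_empty, Nat.cast_zero]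
        positivity
    have h7 : ∑ p ∈ P, ((Js.filter fun t => p ∈ S t).card : ℝ) ≤ e2 m ((3 * kp + E) * N) * (τ * e2 m ((d + 2 * E) * N)) := by
      calc _ ≤ ∑ p ∈ P, τ * e2 m ((d + 2 * E) * N) := Finset.sum_le_sum h6
        _ = (P.card : ℝ) * (τ * e2 m ((d + 2 * E) * N)) := by rw [Finset.sum_const, nsmul_eq_mul]
        _ ≤ _ := mul_le_mul_of_nonneg_right hPc (mul_pos (e2_pos _ _) (e2_pos _ _)).le
    have h8 : (Js.card : ℝ) * lam ≤ e2 m (-(1 / 9 * (j:ℝ)) + 40 * E * N) * e2 m ((d - 11 * E) * N) * lam := by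
      refine (h4.trans_eq h5).trans (h7.trans ?_)
      rw [hτ, hlam]
      simp only [← e2_add]
      exact e2_le (by nlinarith)
    have h9 : (Js.card : ℝ) ≤ e2 m (-(1 / 9 * (j:ℝ)) + 40 * E * N) * e2 m ((d - 11 * E) * N) :=
      le_of_mul_le_mul_right h8 hlam0
    rw [show (2:ℝ) ^ ((-(1 / 9 * (j:ℝ)) + 40 * E * N) * m) = e2 m (-(1 / 9 * (j:ℝ)) + 40 * E * N) from rfl]
    exact h9.trans (mul_le_mul_of_nonneg_left hJc (e2_pos _ _).le)

end Vale.Agent.P076.H874
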