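import Vale.Agent.P076.H732.FinDefs2

/-!
# P076 / BG / FIN.RAT : the ratio of the coordinates of the fourth direction (helper874)

`rat : StRAT` (C = 9).
-/

set_option autoImplicit false

namespace Vale.Agent.P076.H874

open Vale.Agent.P076.H732

theorem tri_bd {L : ℝ} {u v w : Fin 2 → ℝ} (hu : ∀ i, |u i| ≤ L) (hv : ∀ i, |v i| ≤ L) (hw : ∀ i, |w i| ≤ L) :
    |tri u v w| ≤ 8 * L ^ 2 := by
  have key : ∀ {a b : Fin 2 → ℝ}, (∀ i, |a i| ≤ L) → (∀ i, |b i| ≤ L) → ∀ i, |a i - b i| ≤ 2 * L := by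
    intro a b ha hb i
    have := abs_sub (a i) (b i)
    have h1 := ha i
    have h2 := hb i
    linarith
  have hL : 0 ≤ L := le_trans (abs_nonneg _) (hu 0)
  have h1 : |(u 0 - w 0) * (v 1 - w 1)| ≤ (2 * L) * (2 * L) := by
    rw [abs_mul]
    exact mul_le_mul (key hu hw 0) (key hv hw 1) (abs_nonneg _) (by linarith)
  have h2 : |(u 1 - w 1) * (v 0 - w 0)| ≤ (2 * L) * (2 * L) := by
    rw [abs_mul]
    exact mul_le_mul (key hu hw 1) (key hv hw 0) (abs_nonneg _) (by linarith)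
  have e : tri u v w = (u 0 - w 0) * (v 1 - w 1) - (u 1 - w 1) * (v 0 - w 0) := by
    simp only [tri, cr, Pi.sub_apply]
  rw [e]
  have h3 := abs_sub ((u 0 - w 0) * (v 1 - w 1)) ((u 1 - w 1) * (v 0 - w 0))
  nlinarith [h1, h2, h3]

theorem tri_swap (u v w : Fin 2 → ℝ) : tri v u w = - tri u v w := by
  simp only [tri, cr, Pi.sub_apply]; ring

theorem lf_id (u₁ u₂ u₃ w : Fin 2 → ℝ) (h : tri u₁ u₂ u₃ ≠ 0) (h1 : tri u₁ w u₃ ≠ 0) (p : Z3) :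
    lf w u₃ p = bef u₁ u₂ u₃ w * (lf u₂ u₃ p + alf u₁ u₂ u₃ w * lf u₁ u₃ p) := by
  have e : tri u₁ u₂ u₃ * lf w u₃ p = tri u₁ w u₃ * lf u₂ u₃ p + tri w u₂ u₃ * lf u₁ u₃ p := by
    simp only [tri, lf, cr, Pi.sub_apply]; ring
  unfold bef alf
  field_simp
  linarith [e]

/-- polar coordinates of a nonzero vector -/
theorem polar (V : Fin 2 → ℝ) : ∃ th : ℝ, ∀ z : Fin 2 → ℝ, cr V z = Real.sqrt (V 0 ^ 2 + V 1 ^ 2) * nc th z := by
  refine ⟨Complex.arg ⟨V 0, V 1⟩, fun z => ?_⟩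
  have hn : ‖(⟨V 0, V 1⟩ : ℂ)‖ = Real.sqrt (V 0 ^ 2 + V 1 ^ 2) := by
    rw [Complex.norm_def, Complex.normSq_mk]
    congr 1
    ring
  have h1 : ‖(⟨V 0, V 1⟩ : ℂ)‖ * Real.cos (Complex.arg ⟨V 0, V 1⟩) = V 0 := Complex.norm_mul_cos_arg _
  have h2 : ‖(⟨V 0, V 1⟩ : ℂ)‖ * Real.sin (Complex.arg ⟨V 0, V 1⟩) = V 1 := Complex.norm_mul_sin_arg _
  rw [hn] at h1 h2
  unfold cr nc
  calc V 0 * z 1 - V 1 * z 0 = (Real.sqrt (V 0 ^ 2 + V 1 ^ 2) * Real.cos (Complex.arg ⟨V 0, V 1⟩)) * z 1 -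
      (Real.sqrt (V 0 ^ 2 + V 1 ^ 2) * Real.sin (Complex.arg ⟨V 0, V 1⟩)) * z 0 := by rw [h1, h2]
    _ = _ := by ring

theorem rat : StRAT := by
  refine ⟨9, by norm_num, fun L u₁ u₂ u₃ hL b1 b2 b3 ht => ?_⟩
  have hL0 : 0 < L := by linarith
  have hL1 : 1 ≤ L := by linarith
  have e9 : L ^ (9:ℝ) = L ^ 9 := by
    rw [show (9:ℝ) = ((9:ℕ):ℝ) by norm_num, Real.rpow_natCast]
  have em9 : L ^ (-(9:ℝ)) = (L ^ 9)⁻¹ := by
    rw [Real.rpow_neg hL0.le, e9]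
  have hinv : 0 < L⁻¹ := inv_pos.2 hL0
  have t0 : tri u₁ u₂ u₃ ≠ 0 := by
    intro h; rw [h, abs_zero] at ht; linarith
  have h8 : 8 * L ^ 2 ≤ L ^ 5 := by
    have : (2:ℝ) ^ 3 ≤ L ^ 3 := pow_le_pow_left₀ (by norm_num) hL 3
    have h2 : 0 ≤ L ^ 2 := by positivity
    calc 8 * L ^ 2 = 2 ^ 3 * L ^ 2 := by norm_num
      _ ≤ L ^ 3 * L ^ 2 := mul_le_mul_of_nonneg_right this h2
      _ = L ^ 5 := by ring
  refine ⟨fun w hw => ?_, fun x => ?_⟩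
  · have t1 : 0 < |tri u₁ w u₃| := lt_of_lt_of_le hinv hw.t1
    have t2' : L⁻¹ ≤ |tri w u₂ u₃| := by
      rw [← neg_neg (tri w u₂ u₃), ← tri_swap w u₂ u₃, abs_neg]; exact hw.t2
    have B1 : |tri u₁ w u₃| ≤ L ^ 5 := le_trans (tri_bd b1 hw.bd b3) h8
    have B2 : |tri w u₂ u₃| ≤ L ^ 5 := le_trans (tri_bd hw.bd b2 b3) h8
    have B3 : |tri u₁ u₂ u₃| ≤ L ^ 5 := le_trans (tri_bd b1 b2 b3) h8
    have T0 : 0 < |tri u₁ u₂ u₃| := lt_of_lt_of_le hinv ht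
    have h69 : L ^ 6 ≤ L ^ 9 := pow_le_pow_right₀ hL1 (by norm_num)
    have hi : L⁻¹ * L = 1 := inv_mul_cancel₀ hL0.ne'
    have low : ∀ A B : ℝ, L⁻¹ ≤ A → 0 < B → B ≤ L ^ 5 → (L ^ 9)⁻¹ ≤ A / B := by
      intro A B hA hB hB5
      rw [le_div_iff₀ hB]
      calc (L ^ 9)⁻¹ * B ≤ (L ^ 6)⁻¹ * L ^ 5 :=
            mul_le_mul (inv_anti₀ (by positivity) h69) hB5 hB.le (by positivity)
        _ = L⁻¹ := by field_simp
        _ ≤ A := hA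
    refine ⟨?_, ?_, ?_, lf_id u₁ u₂ u₃ w t0 (abs_pos.1 t1)⟩
    · rw [em9]
      unfold alf
      rw [abs_div]
      exact low _ _ t2' t1 B1
    · rw [e9]
      unfold alf
      rw [abs_div, div_le_iff₀ t1]
      calc |tri w u₂ u₃| ≤ L ^ 5 := B2
        _ = L ^ 6 * L⁻¹ := by field_simp
        _ ≤ L ^ 9 * |tri u₁ w u₃| := mul_le_mul h69 hw.t1 hinv.le (by positivity)
    · rw [em9]
      unfold bef
      rw [abs_div]
      exact low _ _ hw.t1 T0 B3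
  · -- the vector `V = (u₂ - u₃) + x (u₁ - u₃)`
    obtain ⟨th, hth⟩ := polar (fun i => (u₂ i - u₃ i) + x * (u₁ i - u₃ i))
    refine ⟨th, fun w r hw hr => ?_⟩
    set V : Fin 2 → ℝ := fun i => (u₂ i - u₃ i) + x * (u₁ i - u₃ i) with hV
    set n : ℝ := Real.sqrt (V 0 ^ 2 + V 1 ^ 2) with hn
    have t1 : 0 < |tri u₁ w u₃| := lt_of_lt_of_le hinv hw.t1
    have B1 : |tri u₁ w u₃| ≤ L ^ 5 := le_trans (tri_bd b1 hw.bd b3) h8
    -- lower bound of `n`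
    have n0 : 0 ≤ n := Real.sqrt_nonneg _
    have c1 : tri u₁ u₂ u₃ = (u₁ 0 - u₃ 0) * V 1 - (u₁ 1 - u₃ 1) * V 0 := by
      simp only [tri, cr, Pi.sub_apply, hV]; ring
    have v0 : |V 0| ≤ n := Real.abs_le_sqrt (by nlinarith [sq_nonneg (V 1)])
    have v1 : |V 1| ≤ n := Real.abs_le_sqrt (by nlinarith [sq_nonneg (V 0)])
    have d0 : ∀ i, |u₁ i - u₃ i| ≤ 2 * L := by
      intro i
      have := abs_sub (u₁ i) (u₃ i)
      have h1 := b1 i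
      have h2 := b3 i
      linarith
    have ln : L⁻¹ ≤ 4 * L * n := by
      have h1 : |(u₁ 0 - u₃ 0) * V 1| ≤ (2 * L) * n := by
        rw [abs_mul]; exact mul_le_mul (d0 0) v1 (abs_nonneg _) (by linarith)
      have h2 : |(u₁ 1 - u₃ 1) * V 0| ≤ (2 * L) * n := by
        rw [abs_mul]; exact mul_le_mul (d0 1) v0 (abs_nonneg _) (by linarith)
      have h3 := abs_sub ((u₁ 0 - u₃ 0) * V 1) ((u₁ 1 - u₃ 1) * V 0)
      rw [← c1] at h3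
      linarith
    have npos : 0 < n := by
      by_contra h
      have h0 : n = 0 := le_antisymm (not_lt.1 h) n0
      rw [h0] at ln
      linarith
    -- the numerator
    have e1 : cr V (w - u₃) = - ((alf u₁ u₂ u₃ w - x) * tri u₁ w u₃) := by
      have h : alf u₁ u₂ u₃ w * tri u₁ w u₃ = tri w u₂ u₃ := by
        unfold alf; exact div_mul_cancel₀ _ (abs_pos.1 t1)
      rw [sub_mul, h]
      simp only [tri, cr, Pi.sub_apply, hV]; ring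
    have e2 : n * |nc th (w - u₃)| = |alf u₁ u₂ u₃ w - x| * |tri u₁ w u₃| := by
      rw [← abs_mul, ← abs_neg ((alf u₁ u₂ u₃ w - x) * tri u₁ w u₃), ← e1, hth, abs_mul, abs_of_nonneg n0]
    have r0 : 0 ≤ r := le_trans (abs_nonneg _) hr
    have e3 : n * |nc th (w - u₃)| ≤ r * L ^ 5 := by
      rw [e2]; exact mul_le_mul hr B1 (abs_nonneg _) r0
    have h4 : 4 * L ^ 2 ≤ L ^ 4 := by
      have : (2:ℝ) ^ 2 ≤ L ^ 2 := pow_le_pow_left₀ (by norm_num) hL 2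
      nlinarith [sq_nonneg L]
    have ln2 : 1 ≤ L ^ 4 * n := by
      have h5 : L⁻¹ * L ≤ (4 * L * n) * L := mul_le_mul_of_nonneg_right ln hL0.le
      rw [inv_mul_cancel₀ hL0.ne'] at h5
      have h6 : 4 * L ^ 2 * n ≤ L ^ 4 * n := mul_le_mul_of_nonneg_right h4 n0
      nlinarith
    rw [e9]
    have q0 : 0 ≤ |nc th (w - u₃)| := abs_nonneg _
    calc |nc th (w - u₃)| = 1 * |nc th (w - u₃)| := (one_mul _).symm
      _ ≤ (L ^ 4 * n) * |nc th (w - u₃)| := mul_le_mul_of_nonneg_right ln2 q0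
      _ = L ^ 4 * (n * |nc th (w - u₃)|) := by ring
      _ ≤ L ^ 4 * (r * L ^ 5) := mul_le_mul_of_nonneg_left e3 (by positivity)
      _ = L ^ 9 * r := by ring

end Vale.Agent.P076.H874
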