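import Vale.Agent.P076.H874.SelCfg

/-!
# P076 / BG / SEL, part 4 (helper874): selection of the frame and of the pencil, `stSEL : StSEL`
-/

set_option autoImplicit false

namespace Vale.Agent.P076.H874

open Vale.Agent.P076.H732

variable {ι : Type}

theorem sum5 {α : Type*} (P : Finset α) (T : Finset ι) (f : α → ι → ι → ι → ι → ℝ) :
    ∑ p ∈ P, ∑ a ∈ T, ∑ b ∈ T, ∑ c ∈ T, ∑ e ∈ T, f p a b c e =
      ∑ a ∈ T, ∑ b ∈ T, ∑ c ∈ T, ∑ e ∈ T, ∑ p ∈ P, f p a b c e := by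
  rw [Finset.sum_comm]
  refine Finset.sum_congr rfl fun a _ => ?_
  rw [Finset.sum_comm]
  refine Finset.sum_congr rfl fun b _ => ?_
  rw [Finset.sum_comm]
  refine Finset.sum_congr rfl fun c _ => ?_
  rw [Finset.sum_comm]

theorem sum_ind {α : Type*} (P : Finset α) (q : α → Prop) [DecidablePred q] :
    ∑ p ∈ P, ind (q p) = ((P.filter q).card : ℝ) := by
  rw [Finset.card_filter, Nat.cast_sum]
  refine Finset.sum_congr rfl fun p _ => ?_
  by_cases h : q p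
  · rw [ind_true h, if_pos h, Nat.cast_one]
  · rw [ind_false h, if_neg h, Nat.cast_zero]

theorem Ex_le_sum (T : Finset ι) (ρ f : ι → ℝ) (U : ℝ) (hρ : ∀ t ∈ T, ρ t ≤ U) (hf : ∀ t ∈ T, 0 ≤ f t) :
    Ex T ρ f ≤ U * ∑ t ∈ T, f t := by
  unfold Ex
  rw [Finset.mul_sum]
  exact Finset.sum_le_sum fun t ht => mul_le_mul_of_nonneg_right (hρ t ht) (hf t ht)

theorem lt_one_of {p : Prop} {x : ℝ} (h : ind p ≤ x) (hx : x < 1) : ¬ p := by
  intro hp
  rw [ind_true hp] at h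
  linarith

section
variable {kp E d : ℝ} {N m : ℕ} {P : Finset Z3} {Th : Finset ι} {v : ι → Fin 2 → ℝ} {μ : Z3 → ι → ℝ}

/-- heaviness of the pair `a, b` at the level `j` -/
def Hv (E : ℝ) (N m : ℕ) (Th : Finset ι) (v : ι → Fin 2 → ℝ) (μ : Z3 → ι → ℝ) (p : Z3) (j : ℕ) (b a : ι) : Prop :=
  e2 m (-(1 / 9) * j + 8 * (E * N)) < sm Th (rh Th μ p) v (e2 m (-j + 2 * (E * N))) b a

/-- good tuples -/
def Gd (E d : ℝ) (N m : ℕ) (Th : Finset ι) (v : ι → Fin 2 → ℝ) (μ : Z3 → ι → ℝ) (p : Z3) (t3 t1 t2 t4 : ι) : Prop :=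
  e2 m (-(E * N)) ^ 2 ≤ |cr (v t1 - v t3) (v t2 - v t3)| ∧ e2 m (-(E * N)) ^ 2 ≤ |cr (v t1 - v t3) (v t4 - v t3)| ∧
  e2 m (-(E * N)) ^ 2 ≤ |cr (v t2 - v t3) (v t4 - v t3)| ∧ (∀ j ≤ N, ¬ Hv E N m Th v μ p j t3 t4) ∧
  e2 m (-((d + 2 * E) * N)) ≤ rh Th μ p t4 ∧ rh Th μ p t1 ≠ 0 ∧ rh Th μ p t2 ≠ 0 ∧ rh Th μ p t3 ≠ 0

theorem ex_zero {T : Finset ι} {ρ : ι → ℝ} : Ex T ρ (fun t => ind (ρ t = 0)) = 0 := by
  unfold Ex
  refine Finset.sum_eq_zero fun t _ => ?_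
  show ρ t * ind (ρ t = 0) = 0
  by_cases h : ρ t = 0
  · rw [h, zero_mul]
  · rw [ind_false h, mul_zero]

theorem good_mass (hC : Cfg kp E d N m P Th v μ) {p : Z3} (hpP : p ∈ P) (hp : 0 < pm Th μ p) (hE : 1 ≤ E * N)
    (hm : N + 10 ≤ m) (hN : 1 ≤ N) :
    1 / 2 ≤ Ex Th (rh Th μ p) (fun t3 => Ex Th (rh Th μ p) (fun t1 => Ex Th (rh Th μ p) (fun t2 =>
      Ex Th (rh Th μ p) (fun t4 => ind (Gd E d N m Th v μ p t3 t1 t2 t4))))) := by
  set ρ := rh Th μ p with hρ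
  have hpr : Pr Th ρ := pr_of hC hp
  have hN1 : (1:ℝ) ≤ N := by exact_mod_cast hN
  have hm1 : (1:ℝ) ≤ m := by
    have : 1 ≤ m := by omega
    exact_mod_cast this
  set r1 := e2 m (-(E * N)) with hr1
  -- pointwise
  have key : ∀ t3 t1 t2 t4, 1 ≤ ind (Gd E d N m Th v μ p t3 t1 t2 t4) +
      (ind (|cr (v t1 - v t3) (v t2 - v t3)| < r1 ^ 2) + (ind (|cr (v t1 - v t3) (v t4 - v t3)| < r1 ^ 2) +
      (ind (|cr (v t2 - v t3) (v t4 - v t3)| < r1 ^ 2) + (∑ j ∈ Finset.range (N + 1), ind (Hv E N m Th v μ p j t3 t4) +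
      (ind (ρ t4 < e2 m (-((d + 2 * E) * N))) + (ind (ρ t1 = 0) + (ind (ρ t2 = 0) + ind (ρ t3 = 0)))))))) := by
    intro t3 t1 t2 t4
    by_contra hlt
    rw [not_le] at hlt
    have n0 := ind_nonneg (Gd E d N m Th v μ p t3 t1 t2 t4)
    have n1 := ind_nonneg (|cr (v t1 - v t3) (v t2 - v t3)| < r1 ^ 2)
    have n2 := ind_nonneg (|cr (v t1 - v t3) (v t4 - v t3)| < r1 ^ 2)
    have n3 := ind_nonneg (|cr (v t2 - v t3) (v t4 - v t3)| < r1 ^ 2)
    have n4 : 0 ≤ ∑ j ∈ Finset.range (N + 1), ind (Hv E N m Th v μ p j t3 t4) :=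
      Finset.sum_nonneg fun _ _ => ind_nonneg _
    have n5 := ind_nonneg (ρ t4 < e2 m (-((d + 2 * E) * N)))
    have n6 := ind_nonneg (ρ t1 = 0)
    have n7 := ind_nonneg (ρ t2 = 0)
    have n8 := ind_nonneg (ρ t3 = 0)
    have c1 := lt_one_of (p := |cr (v t1 - v t3) (v t2 - v t3)| < r1 ^ 2) le_rfl (by linarith)
    have c2 := lt_one_of (p := |cr (v t1 - v t3) (v t4 - v t3)| < r1 ^ 2) le_rfl (by linarith)
    have c3 := lt_one_of (p := |cr (v t2 - v t3) (v t4 - v t3)| < r1 ^ 2) le_rfl (by linarith)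
    have c5 := lt_one_of (p := ρ t4 < e2 m (-((d + 2 * E) * N))) le_rfl (by linarith)
    have c6 := lt_one_of (p := ρ t1 = 0) le_rfl (by linarith)
    have c7 := lt_one_of (p := ρ t2 = 0) le_rfl (by linarith)
    have c8 := lt_one_of (p := ρ t3 = 0) le_rfl (by linarith)
    have c4 : ∀ j ≤ N, ¬ Hv E N m Th v μ p j t3 t4 := by
      intro j hj
      have h1 : ind (Hv E N m Th v μ p j t3 t4) ≤ ∑ j ∈ Finset.range (N + 1), ind (Hv E N m Th v μ p j t3 t4) :=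
        Finset.single_le_sum (f := fun j => ind (Hv E N m Th v μ p j t3 t4)) (fun _ _ => ind_nonneg _)
          (Finset.mem_range.2 (by omega))
      exact lt_one_of h1 (by linarith)
    have hG : Gd E d N m Th v μ p t3 t1 t2 t4 := ⟨not_lt.1 c1, not_lt.1 c2, not_lt.1 c3, c4, not_lt.1 c5, c6, c7, c8⟩
    rw [ind_true hG] at hlt
    linarith
  have h1 : (1:ℝ) = Ex Th ρ (fun _ => Ex Th ρ (fun _ => Ex Th ρ (fun _ => Ex Th ρ (fun _ => 1)))) := by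
    simp only [hpr.const]
  have h2 := hpr.mono (f := fun _ => Ex Th ρ (fun _ => Ex Th ρ (fun _ => Ex Th ρ (fun _ => 1)))) (fun t3 _ =>
    hpr.mono (fun t1 _ => hpr.mono (fun t2 _ => hpr.mono (fun t4 _ => key t3 t1 t2 t4))))
  rw [← h1] at h2
  simp only [Ex_add, hpr.const, Ex_sum, ex_zero, add_zero] at h2
  -- the error terms
  have s0 : (0:ℝ) ≤ 1 / (1000 * (N:ℝ) ^ 2) := by positivity
  have htr := Pen.tr (v := v) hpr (e2_pos m (-(E * N))) s0 (cfg_str hC hpP hp)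
  have b2 : Ex Th ρ (fun t3 => Ex Th ρ (fun t1 => Ex Th ρ (fun t4 =>
      ind (|cr (v t1 - v t3) (v t4 - v t3)| < r1 ^ 2)))) ≤ 2 * (1 / (1000 * (N:ℝ) ^ 2)) := htr
  have b4 : ∑ j ∈ Finset.range (N + 1), Ex Th ρ (fun t3 => Ex Th ρ (fun t4 => ind (Hv E N m Th v μ p j t3 t4))) ≤ 12 / 100 := by
    calc _ ≤ ∑ j ∈ Finset.range (N + 1), 6 / (100 * (N:ℝ)) := by
          refine Finset.sum_le_sum fun j hj => ?_
          exact cfg_heavy hC hpP hp hE hm hN (by have := Finset.mem_range.1 hj; omega)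
      _ = (N + 1) * (6 / (100 * (N:ℝ))) := by
          rw [Finset.sum_const, Finset.card_range, nsmul_eq_mul]; push_cast; ring
      _ ≤ 12 / 100 := by
          rw [mul_div_assoc', div_le_div_iff₀ (by positivity) (by norm_num)]
          nlinarith
  have b5 := cfg_small (d := d) hC hp
  have b5' : e2 m (-(E * N)) ≤ 1 / 8 := by
    have hm2 : (10:ℝ) ≤ m := by
      have : 10 ≤ m := by omega
      exact_mod_cast this
    have := mul_e2_le (m := m) 3 (-(E * N)) 0 (by push_cast; nlinarith)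
    rw [e2_zero] at this
    linarith
  have b6 : 1 / (1000 * (N:ℝ) ^ 2) ≤ 1 / 1000 := by
    apply one_div_le_one_div_of_le (by norm_num)
    nlinarith
  linarith

/-- total number of good tuples -/
theorem good_count (hC : Cfg kp E d N m P Th v μ) (hE : 1 ≤ E * N) (hm : N + 10 ≤ m) (hN : 1 ≤ N) :
    1 / 4 ≤ e2 m (-(3 * kp - E) * N) * e2 m (-(d - E) * N) ^ 4 *
      ∑ t3 ∈ Th, ∑ t1 ∈ Th, ∑ t2 ∈ Th, ∑ t4 ∈ Th, ∑ p ∈ P, ind (0 < pm Th μ p ∧ Gd E d N m Th v μ p t3 t1 t2 t4) := by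
  rw [← sum5]
  have hnn : ∀ p, 0 ≤ pm Th μ p := fun p => Finset.sum_nonneg fun t _ => hC.nn p t
  have h1 : (1:ℝ) / 4 ≤ ∑ p ∈ P, pm Th μ p * (1 / 2) := by
    rw [← Finset.sum_mul]
    have := hC.mass
    have e : ∑ p ∈ P, pm Th μ p = ∑ p ∈ P, ∑ θ ∈ Th, μ p θ := rfl
    rw [e]; linarith
  refine h1.trans ?_
  rw [Finset.mul_sum]
  refine Finset.sum_le_sum fun p hpP => ?_
  rcases (hnn p).eq_or_lt with h0 | hp
  · rw [← h0, zero_mul]
    have a1 := e2_pos m (-(3 * kp - E) * N)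
    have a2 := e2_pos m (-(d - E) * N)
    have a3 : (0:ℝ) ≤ ∑ a ∈ Th, ∑ b ∈ Th, ∑ c ∈ Th, ∑ e ∈ Th, ind (0 < pm Th μ p ∧ Gd E d N m Th v μ p a b c e) :=
      Finset.sum_nonneg fun _ _ => Finset.sum_nonneg fun _ _ => Finset.sum_nonneg fun _ _ =>
        Finset.sum_nonneg fun _ _ => ind_nonneg _
    rw [← h0] at a3
    positivity
  · have hg := good_mass hC hpP hp hE hm hN
    have hup : pm Th μ p ≤ e2 m (-(3 * kp - E) * N) := by
      have := hC.up p hpP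
      rwa [e2_eq (m := m) (y := -(3 * kp - E) * N) (by ring)] at this
    have hU : ∀ t ∈ Th, rh Th μ p t ≤ e2 m (-(d - E) * N) := by
      intro t ht
      have := hC.flat p hpP t ht
      rw [e2_eq (m := m) (y := -(d - E) * N) (by ring)] at this
      unfold rh
      rw [div_le_iff₀ hp]
      exact this
    set U := e2 m (-(d - E) * N) with hUd
    have hU0 : 0 < U := e2_pos _ _
    have hG : ∀ a b c e, ind (Gd E d N m Th v μ p a b c e) = ind (0 < pm Th μ p ∧ Gd E d N m Th v μ p a b c e) := by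
      intro a b c e
      by_cases h : Gd E d N m Th v μ p a b c e
      · rw [ind_true h, ind_true ⟨hp, h⟩]
      · rw [ind_false h, ind_false fun hh => h hh.2]
    have hpr := pr_of hC hp
    have g : Ex Th (rh Th μ p) (fun t3 => Ex Th (rh Th μ p) (fun t1 => Ex Th (rh Th μ p) (fun t2 =>
        Ex Th (rh Th μ p) (fun t4 => ind (Gd E d N m Th v μ p t3 t1 t2 t4))))) ≤
        U ^ 4 * ∑ a ∈ Th, ∑ b ∈ Th, ∑ c ∈ Th, ∑ e ∈ Th, ind (0 < pm Th μ p ∧ Gd E d N m Th v μ p a b c e) := by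
      calc _ ≤ Ex Th (rh Th μ p) (fun t3 => Ex Th (rh Th μ p) (fun t1 => Ex Th (rh Th μ p) (fun t2 =>
            U * ∑ e ∈ Th, ind (Gd E d N m Th v μ p t3 t1 t2 e)))) :=
            hpr.mono fun _ _ => hpr.mono fun _ _ => hpr.mono fun _ _ =>
              Ex_le_sum _ _ _ _ hU fun _ _ => ind_nonneg _
        _ ≤ Ex Th (rh Th μ p) (fun t3 => Ex Th (rh Th μ p) (fun t1 =>
            U * ∑ c ∈ Th, (U * ∑ e ∈ Th, ind (Gd E d N m Th v μ p t3 t1 c e)))) :=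
            hpr.mono fun _ _ => hpr.mono fun _ _ =>
              Ex_le_sum _ _ _ _ hU fun _ _ => mul_nonneg hU0.le (Finset.sum_nonneg fun _ _ => ind_nonneg _)
        _ ≤ Ex Th (rh Th μ p) (fun t3 => U * ∑ b ∈ Th, (U * ∑ c ∈ Th, (U * ∑ e ∈ Th, ind (Gd E d N m Th v μ p t3 b c e)))) :=
            hpr.mono fun _ _ =>
              Ex_le_sum _ _ _ _ hU fun _ _ => mul_nonneg hU0.le (Finset.sum_nonneg fun _ _ =>
                mul_nonneg hU0.le (Finset.sum_nonneg fun _ _ => ind_nonneg _))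
        _ ≤ U * ∑ a ∈ Th, (U * ∑ b ∈ Th, (U * ∑ c ∈ Th, (U * ∑ e ∈ Th, ind (Gd E d N m Th v μ p a b c e)))) :=
              Ex_le_sum _ _ _ _ hU fun _ _ => mul_nonneg hU0.le (Finset.sum_nonneg fun _ _ =>
                mul_nonneg hU0.le (Finset.sum_nonneg fun _ _ =>
                mul_nonneg hU0.le (Finset.sum_nonneg fun _ _ => ind_nonneg _)))
        _ = _ := by
            simp only [← Finset.mul_sum, hG]
            ring
    calc pm Th μ p * (1 / 2) ≤ pm Th μ p * (U ^ 4 * ∑ a ∈ Th, ∑ b ∈ Th, ∑ c ∈ Th, ∑ e ∈ Th,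
          ind (0 < pm Th μ p ∧ Gd E d N m Th v μ p a b c e)) :=
          mul_le_mul_of_nonneg_left (hg.trans g) hp.le
      _ ≤ e2 m (-(3 * kp - E) * N) * (U ^ 4 * ∑ a ∈ Th, ∑ b ∈ Th, ∑ c ∈ Th, ∑ e ∈ Th,
          ind (0 < pm Th μ p ∧ Gd E d N m Th v μ p a b c e)) := by
          refine mul_le_mul_of_nonneg_right hup (mul_nonneg (by positivity) ?_)
          exact Finset.sum_nonneg fun _ _ => Finset.sum_nonneg fun _ _ => Finset.sum_nonneg fun _ _ =>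
            Finset.sum_nonneg fun _ _ => ind_nonneg _
      _ = _ := by ring

/-- the frame -/
theorem exists_frame (hC : Cfg kp E d N m P Th v μ) (hE : 1 ≤ E * N) (hm : N + 10 ≤ m) (hN : 1 ≤ N) :
    ∃ t3 ∈ Th, ∃ t1 ∈ Th, ∃ t2 ∈ Th, e2 m ((3 * kp + d - 9 * E) * N) ≤
      ∑ t4 ∈ Th, ∑ p ∈ P, ind (0 < pm Th μ p ∧ Gd E d N m Th v μ p t3 t1 t2 t4) := by
  by_contra hcon
  have hcon' : ∀ t3 ∈ Th, ∀ t1 ∈ Th, ∀ t2 ∈ Th,
      ∑ t4 ∈ Th, ∑ p ∈ P, ind (0 < pm Th μ p ∧ Gd E d N m Th v μ p t3 t1 t2 t4) ≤ e2 m ((3 * kp + d - 9 * E) * N) := by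
    intro t3 h3 t1 h1 t2 h2
    by_contra h
    exact hcon ⟨t3, h3, t1, h1, t2, h2, (not_le.1 h).le⟩
  have h := good_count hC hE hm hN
  set A := e2 m ((3 * kp + d - 9 * E) * N) with hA
  have hA0 : 0 < A := e2_pos _ _
  have hT : (Th.card : ℝ) ≤ e2 m ((d + E) * N) := by
    have := hC.th
    rwa [e2_eq (m := m) (y := (d + E) * N) (by ring)] at this
  have h1 : ∑ t3 ∈ Th, ∑ t1 ∈ Th, ∑ t2 ∈ Th, ∑ t4 ∈ Th, ∑ p ∈ P, ind (0 < pm Th μ p ∧ Gd E d N m Th v μ p t3 t1 t2 t4) ≤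
      (Th.card : ℝ) * ((Th.card : ℝ) * ((Th.card : ℝ) * A)) := by
    have : (Th.card : ℝ) * ((Th.card : ℝ) * ((Th.card : ℝ) * A)) = ∑ t3 ∈ Th, ∑ t1 ∈ Th, ∑ t2 ∈ Th, A := by
      simp only [Finset.sum_const, nsmul_eq_mul]
    rw [this]
    exact Finset.sum_le_sum fun t3 h3 => Finset.sum_le_sum fun t1 h1 => Finset.sum_le_sum fun t2 h2 => hcon' t3 h3 t1 h1 t2 h2
  have h2 : (Th.card : ℝ) * ((Th.card : ℝ) * ((Th.card : ℝ) * A)) ≤
      e2 m ((d + E) * N) * (e2 m ((d + E) * N) * (e2 m ((d + E) * N) * A)) := by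
    have := e2_pos m ((d + E) * N)
    gcongr
  have h3 : (1:ℝ) / 4 ≤ e2 m (-(3 * kp - E) * N) * e2 m (-(d - E) * N) ^ 4 *
      (e2 m ((d + E) * N) * (e2 m ((d + E) * N) * (e2 m ((d + E) * N) * A))) := by
    refine h.trans (mul_le_mul_of_nonneg_left (h1.trans h2) ?_)
    have a1 := e2_pos m (-(3 * kp - E) * N)
    have a2 := e2_pos m (-(d - E) * N)
    positivity
  have h4 : e2 m (-(3 * kp - E) * N) * e2 m (-(d - E) * N) ^ 4 *
      (e2 m ((d + E) * N) * (e2 m ((d + E) * N) * (e2 m ((d + E) * N) * A))) = e2 m (-(E * N)) := by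
    rw [e2_pow, hA]
    simp only [← e2_add]
    congr 1
    push_cast; ring
  rw [h4] at h3
  have hm2 : (10:ℝ) ≤ m := by
    have : 10 ≤ m := by omega
    exact_mod_cast this
  have := mul_e2_le (m := m) 3 (-(E * N)) 0 (by push_cast; nlinarith)
  rw [e2_zero] at this
  linarith

end

end Vale.Agent.P076.H874
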