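import Vale.Agent.P076.H874.SelGeo

/-!
# P076 / BG / SEL, part 2 (helper874): finite expectations, the pencil lemma
-/

set_option autoImplicit false

namespace Vale.Agent.P076.H874

open Vale.Agent.P076.H732

variable {ι : Type}

/-- average -/
def Ex (T : Finset ι) (ρ : ι → ℝ) (f : ι → ℝ) : ℝ := ∑ t ∈ T, ρ t * f t

open Classical in
/-- indicator -/
noncomputable def ind (p : Prop) : ℝ := if p then 1 else 0

theorem ind_nonneg (p : Prop) : 0 ≤ ind p := by unfold ind; split_ifs <;> norm_num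

theorem ind_le_one (p : Prop) : ind p ≤ 1 := by unfold ind; split_ifs <;> norm_num

theorem ind_true {p : Prop} (h : p) : ind p = 1 := by unfold ind; rw [if_pos h]

theorem ind_false {p : Prop} (h : ¬ p) : ind p = 0 := by unfold ind; rw [if_neg h]

theorem ind_mono {p q : Prop} (h : p → q) : ind p ≤ ind q := by
  by_cases hp : p
  · rw [ind_true hp, ind_true (h hp)]
  · rw [ind_false hp]; exact ind_nonneg _

/-- probability law on a finite set -/
structure Pr (T : Finset ι) (ρ : ι → ℝ) : Prop where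
  nn : ∀ t, 0 ≤ ρ t
  one : ∑ t ∈ T, ρ t = 1

theorem Pr.mono {T : Finset ι} {ρ : ι → ℝ} (h : Pr T ρ) {f g : ι → ℝ} (hfg : ∀ t ∈ T, f t ≤ g t) :
    Ex T ρ f ≤ Ex T ρ g :=
  Finset.sum_le_sum fun t ht => mul_le_mul_of_nonneg_left (hfg t ht) (h.nn t)

theorem Pr.nonneg {T : Finset ι} {ρ : ι → ℝ} (h : Pr T ρ) {f : ι → ℝ} (hf : ∀ t ∈ T, 0 ≤ f t) : 0 ≤ Ex T ρ f :=
  Finset.sum_nonneg fun t ht => mul_nonneg (h.nn t) (hf t ht)

theorem Pr.const {T : Finset ι} {ρ : ι → ℝ} (h : Pr T ρ) (c : ℝ) : Ex T ρ (fun _ => c) = c := by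
  unfold Ex
  rw [← Finset.sum_mul, h.one, one_mul]

theorem Ex_add (T : Finset ι) (ρ f g : ι → ℝ) : Ex T ρ (fun t => f t + g t) = Ex T ρ f + Ex T ρ g := by
  unfold Ex
  rw [← Finset.sum_add_distrib]
  exact Finset.sum_congr rfl fun t _ => mul_add _ _ _

theorem Ex_mul_left (T : Finset ι) (ρ f : ι → ℝ) (c : ℝ) : Ex T ρ (fun t => c * f t) = c * Ex T ρ f := by
  unfold Ex
  rw [Finset.mul_sum]
  exact Finset.sum_congr rfl fun t _ => by ring

theorem Ex_sum {κ : Type*} (T : Finset ι) (ρ : ι → ℝ) (F : Finset κ) (f : κ → ι → ℝ) :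
    Ex T ρ (fun t => ∑ k ∈ F, f k t) = ∑ k ∈ F, Ex T ρ (f k) := by
  unfold Ex
  rw [Finset.sum_comm]
  exact Finset.sum_congr rfl fun t _ => Finset.mul_sum _ _ _

theorem Ex_comm (T : Finset ι) (ρ : ι → ℝ) (f : ι → ι → ℝ) :
    Ex T ρ (fun s => Ex T ρ (fun t => f s t)) = Ex T ρ (fun t => Ex T ρ (fun s => f s t)) := by
  unfold Ex
  simp only [Finset.mul_sum]
  rw [Finset.sum_comm]
  exact Finset.sum_congr rfl fun t _ => Finset.sum_congr rfl fun s _ => by ring

theorem Ex_ind (T : Finset ι) (ρ : ι → ℝ) (p : ι → Prop) [DecidablePred p] :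
    Ex T ρ (fun t => ind (p t)) = ∑ t ∈ T.filter p, ρ t := by
  unfold Ex
  rw [Finset.sum_filter]
  refine Finset.sum_congr rfl fun t _ => ?_
  show ρ t * ind (p t) = _
  by_cases h : p t
  · rw [ind_true h, if_pos h, mul_one]
  · rw [ind_false h, if_neg h, mul_zero]

/-- Cauchy-Schwarz -/
theorem Pr.sq_le {T : Finset ι} {ρ : ι → ℝ} (h : Pr T ρ) (f : ι → ℝ) : (Ex T ρ f) ^ 2 ≤ Ex T ρ (fun t => f t ^ 2) := by
  have key : 0 ≤ Ex T ρ (fun t => (f t - Ex T ρ f) ^ 2) := h.nonneg fun t _ => sq_nonneg _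
  have e : Ex T ρ (fun t => (f t - Ex T ρ f) ^ 2) = Ex T ρ (fun t => f t ^ 2) - (Ex T ρ f) ^ 2 := by
    have : ∀ t, (f t - Ex T ρ f) ^ 2 = f t ^ 2 + ((-2 * Ex T ρ f) * f t + (Ex T ρ f) ^ 2) := fun t => by ring
    simp only [this]
    rw [Ex_add, Ex_add, Ex_mul_left, h.const]
    ring
  rw [e] at key
  linarith

/-! ## separated families -/

/-- a maximal separated family -/
theorem exists_sep (H : Finset ι) (R : ι → ι → Prop) (hsymm : ∀ x y, R x y → R y x) (hirr : ∀ x, ¬ R x x) :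
    ∃ F ⊆ H, (∀ x ∈ F, ∀ y ∈ F, x ≠ y → R x y) ∧ ∀ a ∈ H, ∃ f ∈ F, ¬ R f a := by
  classical
  induction H using Finset.induction_on with
  | empty => exact ⟨∅, Finset.Subset.refl _, by simp, by simp⟩
  | insert a s ha ih =>
    obtain ⟨F, hF, hp, hc⟩ := ih
    by_cases h : ∃ f ∈ F, ¬ R f a
    · refine ⟨F, hF.trans (Finset.subset_insert _ _), hp, fun b hb => ?_⟩
      rcases Finset.mem_insert.1 hb with rfl | hb
      · exact h
      · exact hc b hb
    · have h : ∀ f ∈ F, R f a := fun f hf => by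
        by_contra hc'
        exact h ⟨f, hf, hc'⟩
      refine ⟨insert a F, Finset.insert_subset_insert _ hF, ?_, fun b hb => ?_⟩
      · intro x hx y hy hxy
        rcases Finset.mem_insert.1 hx with ex | hx'
        · rcases Finset.mem_insert.1 hy with ey | hy'
          · exact absurd (ex.trans ey.symm) hxy
          · rw [ex]; exact hsymm _ _ (h y hy')
        · rcases Finset.mem_insert.1 hy with ey | hy'
          · rw [ey]; exact h x hx'
          · exact hp x hx' y hy' hxy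
      · rcases Finset.mem_insert.1 hb with rfl | hb
        · exact ⟨b, Finset.mem_insert_self _ _, hirr b⟩
        · obtain ⟨f, hf, hfb⟩ := hc b hb
          exact ⟨f, Finset.mem_insert_of_mem hf, hfb⟩

theorem cr_swap (u x : Fin 2 → ℝ) : |cr u x| = |cr x u| := by
  have : cr u x = - cr x u := by unfold cr; ring
  rw [this, abs_neg]

theorem cr_self (u : Fin 2 → ℝ) : cr u u = 0 := by unfold cr; ring

/-- mass of the strip through `v b` and `v a` -/
noncomputable def sm (T : Finset ι) (ρ : ι → ℝ) (v : ι → Fin 2 → ℝ) (w : ℝ) (b a : ι) : ℝ :=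
  Ex T ρ (fun t => ind (|cr (v a - v b) (v t - v b)| ≤ w))

/-- data of the pencil lemma -/
structure Pen (T : Finset ι) (ρ : ι → ℝ) (v : ι → Fin 2 → ℝ) (B w τ r0 r1 r2 κ η s0 : ℝ) : Prop where
  pr : Pr T ρ
  B0 : 0 < B
  w0 : 0 ≤ w
  τ0 : 0 < τ
  r10 : 0 < r1
  κ0 : 0 < κ
  η0 : 0 ≤ η
  vB : ∀ t ∈ T, ∀ i, |v t i| ≤ B
  str : ∀ ϑ r : ℝ, Ex T ρ (fun t => ind (|nc ϑ (v t) - r| ≤ r1)) ≤ s0
  cap0 : ∀ c : Fin 2 → ℝ, Ex T ρ (fun t => ind (∀ i, |v t i - c i| ≤ r0)) ≤ τ / 2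
  cap2 : ∀ c : Fin 2 → ℝ, Ex T ρ (fun t => ind (∀ i, |v t i - c i| ≤ r2)) ≤ η
  k1 : 4 * (w * B) ≤ κ * r0
  k2 : 8 * (κ * B) ≤ r1 ^ 3
  k3 : 2048 * (κ * B ^ 5) ≤ r2 * r1 ^ 6

theorem sub_le {B : ℝ} {x y : Fin 2 → ℝ} (hx : ∀ i, |x i| ≤ B) (hy : ∀ i, |y i| ≤ B) (i : Fin 2) :
    |(x - y) i| ≤ 2 * B := by
  have := abs_sub (x i) (y i)
  rw [Pi.sub_apply]
  linarith [hx i, hy i]

theorem Pen.cover {T : Finset ι} {ρ : ι → ℝ} {v : ι → Fin 2 → ℝ} {B w τ r0 r1 r2 κ η s0 : ℝ}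
    (h : Pen T ρ v B w τ r0 r1 r2 κ η s0) (b : ι) (hb : b ∈ T) (q : ι → Prop) :
    ∃ F ⊆ T, (F.card : ℝ) * (τ / 2) ≤ 1 ∧ (∀ f ∈ F, q f) ∧
      ∀ a ∈ T, τ < sm T ρ v w b a → q a → ∃ f ∈ F, |cr (v f - v b) (v a - v b)| < κ := by
  classical
  obtain ⟨F, hF, hp, hc⟩ := exists_sep (T.filter fun a => τ < sm T ρ v w b a ∧ q a)
    (fun x y => κ ≤ |cr (v x - v b) (v y - v b)|) (fun x y hxy => by rw [cr_swap]; exact hxy)
    (fun x hx => by
      rw [cr_self, abs_zero] at hx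
      exact absurd h.κ0 (not_lt.2 hx))
  have hFT : ∀ f ∈ F, f ∈ T ∧ τ < sm T ρ v w b f ∧ q f := fun f hf => by
    have := hF hf
    rw [Finset.mem_filter] at this
    exact this
  refine ⟨F, fun f hf => (hFT f hf).1, ?_, fun f hf => (hFT f hf).2.2, fun a ha h1 h2 => ?_⟩
  · set A : ι → Finset ι := fun f => T.filter fun t => |cr (v f - v b) (v t - v b)| ≤ w ∧ ¬ (∀ i, |v t i - v b i| ≤ r0) with hA
    have hmass : ∀ f ∈ F, τ / 2 ≤ ∑ t ∈ A f, ρ t := by
      intro f hf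
      have h1 := (hFT f hf).2.1
      have h2 : sm T ρ v w b f ≤ Ex T ρ (fun t => ind (|cr (v f - v b) (v t - v b)| ≤ w ∧ ¬ (∀ i, |v t i - v b i| ≤ r0))
          + ind (∀ i, |v t i - v b i| ≤ r0)) := by
        refine h.pr.mono fun t _ => ?_
        by_cases hq : ∀ i, |v t i - v b i| ≤ r0
        · rw [ind_true hq]
          have := ind_nonneg (|cr (v f - v b) (v t - v b)| ≤ w ∧ ¬ (∀ i, |v t i - v b i| ≤ r0))
          linarith [ind_le_one (|cr (v f - v b) (v t - v b)| ≤ w)]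
        · have := ind_mono (fun hh : |cr (v f - v b) (v t - v b)| ≤ w => (⟨hh, hq⟩ :
            |cr (v f - v b) (v t - v b)| ≤ w ∧ ¬ (∀ i, |v t i - v b i| ≤ r0)))
          linarith [ind_nonneg (∀ i, |v t i - v b i| ≤ r0)]
      rw [Ex_add, Ex_ind] at h2
      have h3 := h.cap0 (v b)
      show τ / 2 ≤ ∑ t ∈ T.filter (fun t => |cr (v f - v b) (v t - v b)| ≤ w ∧ ¬ (∀ i, |v t i - v b i| ≤ r0)), ρ t
      linarith
    have hdisj : (F : Set ι).PairwiseDisjoint A := by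
      intro x hx y hy hxy
      rw [Function.onFun, Finset.disjoint_left]
      intro t h1 h2
      rw [hA, Finset.mem_filter] at h1 h2
      obtain ⟨htT, h1, h3⟩ := h1
      obtain ⟨-, h2, -⟩ := h2
      apply h3
      intro i
      have hxT := (hFT x hx).1
      have hyT := (hFT y hy).1
      exact strips_meet (v x - v b) (v y - v b) (v t - v b) w (2 * B) κ r0 h.κ0
        (sub_le (h.vB x hxT) (h.vB b hb)) (sub_le (h.vB y hyT) (h.vB b hb)) h1 h2 (hp x hx y hy hxy)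
        (by linarith [h.k1]) i
    have h1 : ∑ t ∈ F.biUnion A, ρ t = ∑ f ∈ F, ∑ t ∈ A f, ρ t := Finset.sum_biUnion hdisj
    have h2 : ∑ t ∈ F.biUnion A, ρ t ≤ ∑ t ∈ T, ρ t := by
      apply Finset.sum_le_sum_of_subset_of_nonneg
      · intro t ht
        rw [Finset.mem_biUnion] at ht
        obtain ⟨f, _, hf⟩ := ht
        exact (Finset.mem_filter.1 hf).1
      · intro t _ _
        exact h.pr.nn t
    have h3 : ∑ f ∈ F, τ / 2 ≤ ∑ f ∈ F, ∑ t ∈ A f, ρ t := Finset.sum_le_sum hmass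
    rw [Finset.sum_const, nsmul_eq_mul] at h3
    rw [h.pr.one] at h2
    linarith
  · obtain ⟨f, hf, hfa⟩ := hc a (Finset.mem_filter.2 ⟨ha, h1, h2⟩)
    exact ⟨f, hf, not_le.1 hfa⟩

/-- two heavy pencils meet in few transversal points -/
theorem Pen.two {T : Finset ι} {ρ : ι → ℝ} {v : ι → Fin 2 → ℝ} {B w τ r0 r1 r2 κ η s0 : ℝ}
    (h : Pen T ρ v B w τ r0 r1 r2 κ η s0) (b b' : ι) (hb : b ∈ T) (hb' : b' ∈ T) :
    Ex T ρ (fun a => ind (τ < sm T ρ v w b a ∧ r1 ≤ |(v a - v b) 1|) * ind (τ < sm T ρ v w b' a ∧ r1 ≤ |(v a - v b') 1|) *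
      ind (r1 ^ 2 ≤ |cr (v b - v a) (v b' - v a)|)) ≤ (2 / τ) ^ 2 * η := by
  classical
  obtain ⟨F, hF, hcard, hq, hcov⟩ := h.cover b hb (fun a => r1 ≤ |(v a - v b) 1|)
  obtain ⟨F', hF', hcard', hq', hcov'⟩ := h.cover b' hb' (fun a => r1 ≤ |(v a - v b') 1|)
  set D : ι → ι → ι → Prop := fun f f' a => |cr (v f - v b) (v a - v b)| < κ ∧ |cr (v f' - v b') (v a - v b')| < κ ∧
    r1 ^ 2 ≤ |cr (v b - v a) (v b' - v a)| with hD
  have h1 : ∀ a ∈ T, ind (τ < sm T ρ v w b a ∧ r1 ≤ |(v a - v b) 1|) * ind (τ < sm T ρ v w b' a ∧ r1 ≤ |(v a - v b') 1|) *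
      ind (r1 ^ 2 ≤ |cr (v b - v a) (v b' - v a)|) ≤ ∑ f ∈ F, ∑ f' ∈ F', ind (D f f' a) := by
    intro a ha
    have hR : 0 ≤ ∑ f ∈ F, ∑ f' ∈ F', ind (D f f' a) :=
      Finset.sum_nonneg fun f _ => Finset.sum_nonneg fun f' _ => ind_nonneg _
    by_cases c1 : τ < sm T ρ v w b a ∧ r1 ≤ |(v a - v b) 1|
    · by_cases c2 : τ < sm T ρ v w b' a ∧ r1 ≤ |(v a - v b') 1|
      · by_cases c3 : r1 ^ 2 ≤ |cr (v b - v a) (v b' - v a)|
        · obtain ⟨f, hf, hfa⟩ := hcov a ha c1.1 c1.2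
          obtain ⟨f', hf', hfa'⟩ := hcov' a ha c2.1 c2.2
          have e1 : ind (D f f' a) = 1 := ind_true ⟨hfa, hfa', c3⟩
          have e2 : ind (D f f' a) ≤ ∑ f'' ∈ F', ind (D f f'' a) :=
            Finset.single_le_sum (f := fun f'' => ind (D f f'' a)) (fun _ _ => ind_nonneg _) hf'
          have e3 : ∑ f'' ∈ F', ind (D f f'' a) ≤ ∑ f ∈ F, ∑ f' ∈ F', ind (D f f' a) :=
            Finset.single_le_sum (f := fun f => ∑ f'' ∈ F', ind (D f f'' a))
              (fun _ _ => Finset.sum_nonneg fun _ _ => ind_nonneg _) hf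
          rw [ind_true c1, ind_true c2, ind_true c3]
          linarith
        · rw [ind_false c3, mul_zero]; exact hR
      · rw [ind_false c2, mul_zero, zero_mul]; exact hR
    · rw [ind_false c1, zero_mul, zero_mul]; exact hR
  refine (h.pr.mono h1).trans ?_
  rw [Ex_sum]
  have h2 : ∀ f ∈ F, ∀ f' ∈ F', Ex T ρ (fun a => ind (D f f' a)) ≤ η := by
    intro f hf f' hf'
    by_cases hne : ∃ a0 ∈ T, D f f' a0
    · obtain ⟨a0, ha0, hD0⟩ := hne
      refine le_trans (h.pr.mono fun a ha => ?_) (h.cap2 (v a0))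
      refine ind_mono fun hDa i => ?_
      have hfT := hF hf
      have hfT' := hF' hf'
      have hX : ∀ i, |(v a0 - v b) i| ≤ 2 * B := sub_le (h.vB a0 ha0) (h.vB b hb)
      have hX' : ∀ i, |(v a0 - v b') i| ≤ 2 * B := sub_le (h.vB a0 ha0) (h.vB b' hb')
      have e0 : |cr (v b - v a0) (v b' - v a0)| = |cr (v a0 - v b) (v a0 - v b')| := by
        congr 1
        unfold cr
        simp only [Pi.sub_apply]; ring
      have low := cr_lower (v f - v b) (v f' - v b') (v a0 - v b) (v a0 - v b') B r1 κ h.r10 h.B0 hX hX'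
        (hq f hf) (hq' f' hf') hD0.1.le hD0.2.1.le (by rw [← e0]; exact hD0.2.2) h.k2
      have g1 : |cr (v f - v b) (v a - v a0)| ≤ 2 * κ := by
        have : cr (v f - v b) (v a - v a0) = cr (v f - v b) (v a - v b) - cr (v f - v b) (v a0 - v b) := by
          unfold cr; simp only [Pi.sub_apply]; ring
        rw [this]
        have := abs_sub (cr (v f - v b) (v a - v b)) (cr (v f - v b) (v a0 - v b))
        linarith [hDa.1, hD0.1]
      have g2 : |cr (v f' - v b') (v a - v a0)| ≤ 2 * κ := by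
        have : cr (v f' - v b') (v a - v a0) = cr (v f' - v b') (v a - v b') - cr (v f' - v b') (v a0 - v b') := by
          unfold cr; simp only [Pi.sub_apply]; ring
        rw [this]
        have := abs_sub (cr (v f' - v b') (v a - v b')) (cr (v f' - v b') (v a0 - v b'))
        linarith [hDa.2.1, hD0.2.1]
      have hB := h.B0
      have hr := h.r10
      have hpos : 0 < r1 ^ 6 / (256 * B ^ 4) := by positivity
      refine strips_meet (v f - v b) (v f' - v b') (v a - v a0) (2 * κ) (2 * B) (r1 ^ 6 / (256 * B ^ 4)) r2 hpos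
        (sub_le (h.vB f hfT) (h.vB b hb)) (sub_le (h.vB f' hfT') (h.vB b' hb')) g1 g2 ?_ ?_ i
      · rw [div_le_iff₀ (by positivity)]
        exact low
      · rw [div_mul_eq_mul_div, le_div_iff₀ (by positivity)]
        nlinarith [h.k3]
    · have : Ex T ρ (fun a => ind (D f f' a)) = 0 := by
        unfold Ex
        refine Finset.sum_eq_zero fun a ha => ?_
        show ρ a * ind (D f f' a) = 0
        rw [ind_false (fun hd => hne ⟨a, ha, hd⟩), mul_zero]
      rw [this]; exact h.η0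
  have h3 : ∑ f ∈ F, Ex T ρ (fun t => ∑ f' ∈ F', ind (D f f' t)) ≤ (F.card : ℝ) * ((F'.card : ℝ) * η) := by
    rw [← nsmul_eq_mul (F.card), ← Finset.sum_const]
    refine Finset.sum_le_sum fun f hf => ?_
    rw [Ex_sum, ← nsmul_eq_mul, ← Finset.sum_const]
    exact Finset.sum_le_sum fun f' hf' => h2 f hf f' hf'
  refine h3.trans ?_
  have hτ := h.τ0
  have c1 : (F.card : ℝ) ≤ 2 / τ := by rw [le_div_iff₀ hτ]; linarith
  have c2 : (F'.card : ℝ) ≤ 2 / τ := by rw [le_div_iff₀ hτ]; linarith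
  calc (F.card : ℝ) * ((F'.card : ℝ) * η) ≤ (2 / τ) * ((2 / τ) * η) := by
        have := h.η0
        gcongr
    _ = (2 / τ) ^ 2 * η := by ring

/-- failure of transversality for a fixed pair -/
theorem Pen.tr1 {T : Finset ι} {ρ : ι → ℝ} {v : ι → Fin 2 → ℝ} {r1 s0 : ℝ} (hp : Pr T ρ) (hr : 0 < r1) (hs : 0 ≤ s0)
    (str : ∀ ϑ r : ℝ, Ex T ρ (fun t => ind (|nc ϑ (v t) - r| ≤ r1)) ≤ s0) (x y : Fin 2 → ℝ) :
    Ex T ρ (fun t => ind (|cr (x - y) (v t - y)| < r1 ^ 2)) ≤ s0 + ind (|(x - y) 1| ≤ r1) := by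
  by_cases hc : |(x - y) 1| ≤ r1
  · rw [ind_true hc]
    calc _ ≤ Ex T ρ (fun _ => 1) := hp.mono fun t _ => ind_le_one _
      _ = 1 := hp.const 1
      _ ≤ s0 + 1 := by linarith
  · rw [ind_false hc, add_zero]
    obtain ⟨l, ϑ, hl, h0, h1⟩ := exists_polar (x - y)
    have hl1 : r1 < l := by
      have : |(x - y) 1| ≤ l := by
        rw [h1, abs_mul, abs_of_nonneg hl]
        nlinarith [Real.abs_sin_le_one ϑ]
      linarith [not_le.1 hc]
    refine le_trans (hp.mono fun t _ => ?_) (str ϑ (nc ϑ y))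
    refine ind_mono fun h => ?_
    rw [cr_polar (x - y) (v t - y) l ϑ h0 h1, nc_sub, abs_mul, abs_of_nonneg hl] at h
    have h2 : r1 * |nc ϑ (v t) - nc ϑ y| ≤ l * |nc ϑ (v t) - nc ϑ y| := by gcongr
    have h3 : r1 * |nc ϑ (v t) - nc ϑ y| ≤ r1 * r1 := by nlinarith
    exact le_of_mul_le_mul_left h3 hr

/-- close pairs -/
theorem Pen.close {T : Finset ι} {ρ : ι → ℝ} {v : ι → Fin 2 → ℝ} {r1 s0 : ℝ} (hp : Pr T ρ)
    (str : ∀ ϑ r : ℝ, Ex T ρ (fun t => ind (|nc ϑ (v t) - r| ≤ r1)) ≤ s0) (y : Fin 2 → ℝ) :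
    Ex T ρ (fun t => ind (|(v t - y) 1| ≤ r1)) ≤ s0 := by
  refine le_trans (hp.mono fun t _ => ?_) (str 0 (y 1))
  refine ind_mono fun h => ?_
  have : nc 0 (v t) = v t 1 := by unfold nc; simp
  rw [this]
  exact h

/-- failure of transversality of a random triple -/
theorem Pen.tr {T : Finset ι} {ρ : ι → ℝ} {v : ι → Fin 2 → ℝ} {r1 s0 : ℝ} (hp : Pr T ρ) (hr : 0 < r1) (hs : 0 ≤ s0)
    (str : ∀ ϑ r : ℝ, Ex T ρ (fun t => ind (|nc ϑ (v t) - r| ≤ r1)) ≤ s0) :
    Ex T ρ (fun a => Ex T ρ (fun b => Ex T ρ (fun c => ind (|cr (v b - v a) (v c - v a)| < r1 ^ 2)))) ≤ 2 * s0 := by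
  calc _ ≤ Ex T ρ (fun a => Ex T ρ (fun b => s0 + ind (|(v b - v a) 1| ≤ r1))) :=
        hp.mono fun a _ => hp.mono fun b _ => Pen.tr1 hp hr hs str (v b) (v a)
    _ ≤ Ex T ρ (fun a => s0 + s0) := by
        refine hp.mono fun a _ => ?_
        rw [Ex_add, hp.const]
        have := Pen.close hp str (v a)
        linarith
    _ = 2 * s0 := by rw [hp.const]; ring

/-- **pencil lemma** -/
theorem Pen.heavy {T : Finset ι} {ρ : ι → ℝ} {v : ι → Fin 2 → ℝ} {B w τ r0 r1 r2 κ η s0 : ℝ}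
    (h : Pen T ρ v B w τ r0 r1 r2 κ η s0) (hs : 0 ≤ s0) :
    Ex T ρ (fun b => Ex T ρ (fun a => ind (τ < sm T ρ v w b a))) ≤ Real.sqrt (2 * s0 + (2 / τ) ^ 2 * η) + s0 := by
  set H : ι → ι → Prop := fun b a => τ < sm T ρ v w b a ∧ r1 ≤ |(v a - v b) 1| with hH
  have hp := h.pr
  have s1 : Ex T ρ (fun b => Ex T ρ (fun a => ind (τ < sm T ρ v w b a))) ≤
      Ex T ρ (fun b => Ex T ρ (fun a => ind (H b a))) + s0 := by
    calc _ ≤ Ex T ρ (fun b => Ex T ρ (fun a => ind (H b a)) + s0) := by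
          refine hp.mono fun b _ => ?_
          calc _ ≤ Ex T ρ (fun a => ind (H b a) + ind (|(v a - v b) 1| ≤ r1)) := by
                refine hp.mono fun a _ => ?_
                by_cases hc : |(v a - v b) 1| ≤ r1
                · rw [ind_true hc]
                  linarith [ind_nonneg (H b a), ind_le_one (τ < sm T ρ v w b a)]
                · have := ind_mono (fun hh : τ < sm T ρ v w b a => (⟨hh, (not_le.1 hc).le⟩ : H b a))
                  linarith [ind_nonneg (|(v a - v b) 1| ≤ r1)]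
            _ ≤ _ := by
                rw [Ex_add]
                have := Pen.close hp h.str (v b)
                linarith
      _ = _ := by rw [Ex_add, hp.const]
  have s2 : (Ex T ρ (fun b => Ex T ρ (fun a => ind (H b a)))) ^ 2 ≤ 2 * s0 + (2 / τ) ^ 2 * η := by
    rw [Ex_comm]
    refine (hp.sq_le _).trans ?_
    have e : ∀ a, (Ex T ρ (fun b => ind (H b a))) ^ 2 = Ex T ρ (fun b => Ex T ρ (fun b' => ind (H b a) * ind (H b' a))) := by
      intro a
      have : ∀ b, Ex T ρ (fun b' => ind (H b a) * ind (H b' a)) = Ex T ρ (fun b' => ind (H b' a)) * ind (H b a) := by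
        intro b
        rw [Ex_mul_left, mul_comm]
      simp only [this]
      rw [Ex_mul_left, pow_two]
    calc Ex T ρ (fun a => (Ex T ρ (fun b => ind (H b a))) ^ 2)
        = Ex T ρ (fun a => Ex T ρ (fun b => Ex T ρ (fun b' => ind (H b a) * ind (H b' a)))) := by simp only [e]
      _ ≤ Ex T ρ (fun a => Ex T ρ (fun b => Ex T ρ (fun b' => ind (H b a) * ind (H b' a) *
            ind (r1 ^ 2 ≤ |cr (v b - v a) (v b' - v a)|) + ind (|cr (v b - v a) (v b' - v a)| < r1 ^ 2)))) := by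
          refine hp.mono fun a _ => hp.mono fun b _ => hp.mono fun b' _ => ?_
          have n1 := ind_nonneg (H b a)
          have n2 := ind_nonneg (H b' a)
          have o1 := ind_le_one (H b a)
          have o2 := ind_le_one (H b' a)
          by_cases hc : r1 ^ 2 ≤ |cr (v b - v a) (v b' - v a)|
          · rw [ind_true hc, mul_one]
            linarith [ind_nonneg (|cr (v b - v a) (v b' - v a)| < r1 ^ 2)]
          · rw [ind_false hc, mul_zero, zero_add, ind_true (not_le.1 hc)]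
            nlinarith
      _ = Ex T ρ (fun a => Ex T ρ (fun b => Ex T ρ (fun b' => ind (H b a) * ind (H b' a) *
            ind (r1 ^ 2 ≤ |cr (v b - v a) (v b' - v a)|)))) +
          Ex T ρ (fun a => Ex T ρ (fun b => Ex T ρ (fun b' => ind (|cr (v b - v a) (v b' - v a)| < r1 ^ 2)))) := by
          simp only [Ex_add]
      _ ≤ (2 / τ) ^ 2 * η + 2 * s0 := by
          refine add_le_add ?_ (Pen.tr hp h.r10 hs h.str)
          calc _ = Ex T ρ (fun b => Ex T ρ (fun b' => Ex T ρ (fun a => ind (H b a) * ind (H b' a) *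
                  ind (r1 ^ 2 ≤ |cr (v b - v a) (v b' - v a)|)))) := by
                rw [Ex_comm]
                congr 1
                funext b
                rw [Ex_comm]
            _ ≤ Ex T ρ (fun b => Ex T ρ (fun b' => (2 / τ) ^ 2 * η)) :=
                hp.mono fun b hb => hp.mono fun b' hb' => h.two b b' hb hb'
            _ = (2 / τ) ^ 2 * η := by simp only [hp.const]
      _ = _ := by ring
  have s3 : Ex T ρ (fun b => Ex T ρ (fun a => ind (H b a))) ≤ Real.sqrt (2 * s0 + (2 / τ) ^ 2 * η) :=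
    Real.le_sqrt_of_sq_le s2
  linarith

end Vale.Agent.P076.H874
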