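import Mathlib.Algebra.BigOperators.Field
import Vale.Agent.P076.H874.SelEx

/-!
# P076 / BG / SEL, part 3 (helper874): the pencil lemma for the laws of a configuration
-/

set_option autoImplicit false

namespace Vale.Agent.P076.H874

open Vale.Agent.P076.H732

variable {ι : Type}

/-- `2 ^ (y m)` -/
noncomputable def e2 (m : ℕ) (y : ℝ) : ℝ := (2:ℝ) ^ (y * m)

theorem e2_pos (m : ℕ) (y : ℝ) : 0 < e2 m y := Real.rpow_pos_of_pos (by norm_num) _

theorem e2_add (m : ℕ) (a b : ℝ) : e2 m (a + b) = e2 m a * e2 m b := by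
  unfold e2
  rw [add_mul, Real.rpow_add (by norm_num)]

theorem e2_zero (m : ℕ) : e2 m 0 = 1 := by unfold e2; simp

theorem e2_le {m : ℕ} {a b : ℝ} (h : a ≤ b) : e2 m a ≤ e2 m b := by
  unfold e2
  exact Real.rpow_le_rpow_of_exponent_le (by norm_num) (mul_le_mul_of_nonneg_right h (Nat.cast_nonneg _))

theorem e2_pow (m : ℕ) (a : ℝ) (k : ℕ) : e2 m a ^ k = e2 m (k * a) := by
  unfold e2
  rw [← Real.rpow_natCast, ← Real.rpow_mul (by norm_num)]
  congr 1; ring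

theorem e2_eq {m : ℕ} {y z : ℝ} (h : z = y * m) : (2:ℝ) ^ z = e2 m y := by rw [h]; rfl

theorem le_e2 {m : ℕ} (k : ℕ) (y : ℝ) (h : (k:ℝ) ≤ y * m) : (2:ℝ) ^ k ≤ e2 m y := by
  unfold e2
  rw [← Real.rpow_natCast]
  exact Real.rpow_le_rpow_of_exponent_le (by norm_num) h

theorem e2_neg (m : ℕ) (y : ℝ) : e2 m (-y) * e2 m y = 1 := by
  rw [← e2_add, neg_add_cancel, e2_zero]

/-- `2 ^ k e2 a ≤ e2 b` -/
theorem mul_e2_le {m : ℕ} (k : ℕ) (a b : ℝ) (h : (k:ℝ) ≤ (b - a) * m) : (2:ℝ) ^ k * e2 m a ≤ e2 m b := by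
  have h1 := le_e2 k (b - a) h
  have h2 : e2 m b = e2 m (b - a) * e2 m a := by rw [← e2_add]; congr 1; ring
  rw [h2]
  exact mul_le_mul_of_nonneg_right h1 (e2_pos _ _).le

/-- mass of the cell -/
noncomputable def pm (Th : Finset ι) (μ : Z3 → ι → ℝ) (p : Z3) : ℝ := ∑ θ ∈ Th, μ p θ

/-- law of the direction given the cell -/
noncomputable def rh (Th : Finset ι) (μ : Z3 → ι → ℝ) (p : Z3) (θ : ι) : ℝ := μ p θ / pm Th μ p

theorem Ex_rh (Th : Finset ι) (μ : Z3 → ι → ℝ) (p : Z3) (f : ι → ℝ) :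
    Ex Th (rh Th μ p) f = Ex Th (μ p) f / pm Th μ p := by
  unfold Ex rh
  rw [Finset.sum_div]
  exact Finset.sum_congr rfl fun t _ => by ring

section
variable {kp E d : ℝ} {N m : ℕ} {P : Finset Z3} {Th : Finset ι} {v : ι → Fin 2 → ℝ} {μ : Z3 → ι → ℝ}

theorem pr_of (hC : Cfg kp E d N m P Th v μ) {p : Z3} (hp : 0 < pm Th μ p) : Pr Th (rh Th μ p) where
  nn t := div_nonneg (hC.nn p t) hp.le
  one := by
    unfold rh
    rw [← Finset.sum_div]
    exact div_self hp.ne'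

theorem ex_le {p : Z3} (hp : 0 < pm Th μ p) (f : ι → ℝ) (c : ℝ)
    (h : Ex Th (μ p) f ≤ c * pm Th μ p) : Ex Th (rh Th μ p) f ≤ c := by
  rw [Ex_rh, div_le_iff₀ hp]
  exact h

theorem cfg_str (hC : Cfg kp E d N m P Th v μ) {p : Z3} (hpP : p ∈ P) (hp : 0 < pm Th μ p) (ϑ r : ℝ) :
    Ex Th (rh Th μ p) (fun t => ind (|nc ϑ (v t) - r| ≤ e2 m (-(E * N)))) ≤ 1 / (1000 * (N:ℝ) ^ 2) := by
  refine ex_le hp _ _ ?_
  have h := hC.str p hpP ϑ r
  rw [← Ex_ind Th (μ p)] at h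
  rw [e2_eq (m := m) (y := -(E * N)) (by ring)] at h
  exact h

theorem cfg_cap (hC : Cfg kp E d N m P Th v μ) {p : Z3} (hpP : p ∈ P) (hp : 0 < pm Th μ p) (hE : 1 ≤ E * N) (s : ℝ)
    (hs0 : 0 ≤ s) (hsN : s ≤ N) (c : Fin 2 → ℝ) :
    Ex Th (rh Th μ p) (fun t => ind (∀ i, |v t i - c i| ≤ e2 m (-s))) ≤ e2 m (-(2 / 3) * s + 2 * (E * N)) := by
  have hk : ⌊s⌋₊ ≤ N := Nat.floor_le_of_le hsN
  have hk1 : (⌊s⌋₊ : ℝ) ≤ s := Nat.floor_le hs0
  have hk2 : s < ⌊s⌋₊ + 1 := Nat.lt_floor_add_one s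
  have h := hC.cap p hpP ⌊s⌋₊ hk c
  rw [← Ex_ind Th (μ p)] at h
  rw [e2_eq (m := m) (y := -(⌊s⌋₊ : ℝ)) (by ring), e2_eq (m := m) (y := -(2 / 3 * (⌊s⌋₊ : ℝ) - E * N)) (by ring)] at h
  calc _ ≤ Ex Th (rh Th μ p) (fun t => ind (∀ i, |v t i - c i| ≤ e2 m (-(⌊s⌋₊ : ℝ)))) :=
        (pr_of hC hp).mono fun t _ => ind_mono fun h i => (h i).trans (e2_le (by linarith))
    _ ≤ e2 m (-(2 / 3 * (⌊s⌋₊ : ℝ) - E * N)) := ex_le hp _ _ h
    _ ≤ _ := e2_le (by linarith)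

/-- the data of the pencil lemma at the level `j` -/
theorem cfg_pen (hC : Cfg kp E d N m P Th v μ) {p : Z3} (hpP : p ∈ P) (hp : 0 < pm Th μ p) (hE : 1 ≤ E * N)
    (hm : 1 ≤ m) {j : ℕ} (hj : j ≤ N) (hj2 : 72 * (E * N) < j) :
    Pen Th (rh Th μ p) v (e2 m (E * N)) (e2 m (-j + 2 * (E * N))) (e2 m (-(1 / 9) * j + 8 * (E * N)))
      (e2 m (-((1 / 6) * j))) (e2 m (-(E * N))) (e2 m (-((5 / 6) * j - 27 * (E * N)))) (e2 m (-(5 / 6) * j + 5 * (E * N)))
      (e2 m (-(5 / 9) * j + 20 * (E * N))) (1 / (1000 * (N:ℝ) ^ 2)) := by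
  have hm1 : (1:ℝ) ≤ m := by exact_mod_cast hm
  have hjN : (j:ℝ) ≤ N := by exact_mod_cast hj
  set h := E * N with hh
  have hhm : 1 ≤ h * m := by nlinarith
  exact
  { pr := pr_of hC hp
    B0 := e2_pos _ _
    w0 := (e2_pos _ _).le
    τ0 := e2_pos _ _
    r10 := e2_pos _ _
    κ0 := e2_pos _ _
    η0 := (e2_pos _ _).le
    vB := by
      intro t ht i
      have := hC.vb t ht i
      rwa [e2_eq (m := m) (y := E * N) (by ring)] at this
    str := cfg_str hC hpP hp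
    cap0 := by
      intro c
      have h1 := cfg_cap hC hpP hp hE (1 / 6 * j) (by positivity) (by nlinarith) c
      refine h1.trans ?_
      have := mul_e2_le (m := m) 1 (-(2 / 3) * (1 / 6 * (j:ℝ)) + 2 * h) (-(1 / 9) * j + 8 * h) (by push_cast; nlinarith)
      rw [pow_one] at this
      rw [← hh]
      linarith
    cap2 := by
      intro c
      have h1 := cfg_cap hC hpP hp hE (5 / 6 * j - 27 * h) (by linarith) (by nlinarith) c
      refine h1.trans (e2_le ?_)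
      rw [← hh]
      linarith
    k1 := by
      have e1 : 4 * (e2 m (-j + 2 * h) * e2 m h) = 2 ^ 2 * e2 m (-j + 2 * h + h) := by rw [e2_add m (-j + 2 * h) h]; ring
      have e2' : e2 m (-(5 / 6) * j + 5 * h) * e2 m (-((1 / 6) * j)) = e2 m (-(5 / 6) * j + 5 * h + -((1 / 6) * j)) := by
        rw [e2_add m (-(5 / 6) * j + 5 * h)]
      rw [e1, e2']
      exact mul_e2_le 2 _ _ (by push_cast; nlinarith)
    k2 := by
      have e1 : 8 * (e2 m (-(5 / 6) * j + 5 * h) * e2 m h) = 2 ^ 3 * e2 m (-(5 / 6) * j + 5 * h + h) := by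
        rw [e2_add m (-(5 / 6) * j + 5 * h) h]; ring
      rw [e1, e2_pow]
      exact mul_e2_le 3 _ _ (by push_cast; nlinarith)
    k3 := by
      have e1 : 2048 * (e2 m (-(5 / 6) * j + 5 * h) * e2 m h ^ 5) = 2 ^ 11 * e2 m (-(5 / 6) * j + 5 * h + (5:ℕ) * h) := by
        rw [e2_pow, e2_add m (-(5 / 6) * j + 5 * h)]; ring
      have e3 : e2 m (-((5 / 6) * j - 27 * h)) * e2 m (-h) ^ 6 = e2 m (-((5 / 6) * j - 27 * h) + (6:ℕ) * (-h)) := by
        rw [e2_pow, e2_add m (-((5 / 6) * j - 27 * h))]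
      rw [e1, e3]
      exact mul_e2_le 11 _ _ (by push_cast; nlinarith) }

/-- heavy pairs are rare -/
theorem cfg_heavy (hC : Cfg kp E d N m P Th v μ) {p : Z3} (hpP : p ∈ P) (hp : 0 < pm Th μ p) (hE : 1 ≤ E * N)
    (hm : N + 10 ≤ m) (hN : 1 ≤ N) {j : ℕ} (hj : j ≤ N) :
    Ex Th (rh Th μ p) (fun b => Ex Th (rh Th μ p) (fun a => ind (e2 m (-(1 / 9) * j + 8 * (E * N)) <
      sm Th (rh Th μ p) v (e2 m (-j + 2 * (E * N))) b a))) ≤ 6 / (100 * (N:ℝ)) := by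
  have hpr := pr_of hC hp
  have hN1 : (1:ℝ) ≤ N := by exact_mod_cast hN
  have hm1 : (1:ℝ) ≤ m := by
    have : 1 ≤ m := by omega
    exact_mod_cast this
  by_cases hj2 : 72 * (E * N) < j
  · have hpen := cfg_pen hC hpP hp hE (by omega) hj hj2
    have h1 := hpen.heavy (by positivity)
    refine h1.trans ?_
    -- the error term
    have h2 : (2 / e2 m (-(1 / 9) * j + 8 * (E * N))) ^ 2 * e2 m (-(5 / 9) * j + 20 * (E * N)) ≤ 1 / (1000 * (N:ℝ) ^ 2) := by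
      have hpos := e2_pos m (-(1 / 9) * j + 8 * (E * N))
      rw [div_pow, e2_pow, div_mul_eq_mul_div, div_le_div_iff₀ (e2_pos _ _) (by positivity)]
      have hN2 : (N:ℝ) ≤ 2 ^ N := by
        have := (Nat.lt_two_pow_self (n := N)).le
        exact_mod_cast this
      have h3 : 1000 * (N:ℝ) ^ 2 ≤ 2 ^ (2 * N + 10) := by
        calc 1000 * (N:ℝ) ^ 2 ≤ 1024 * (2 ^ N) ^ 2 := by gcongr; norm_num
          _ = 2 ^ (2 * N + 10) := by rw [pow_add, ← pow_mul, mul_comm N 2]; norm_num; ring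
      have h4 : (2:ℝ) ^ (2 * N + 12) * e2 m (-(5 / 9) * j + 20 * (E * N)) ≤ e2 m ((2:ℕ) * (-(1 / 9) * j + 8 * (E * N))) := by
        refine mul_e2_le _ _ _ ?_
        have hm2 : (N:ℝ) + 10 ≤ m := by exact_mod_cast hm
        push_cast
        nlinarith
      calc 2 ^ 2 * e2 m (-(5 / 9) * j + 20 * (E * N)) * (1000 * (N:ℝ) ^ 2)
          ≤ 2 ^ 2 * e2 m (-(5 / 9) * j + 20 * (E * N)) * 2 ^ (2 * N + 10) := by
            have := e2_pos m (-(5 / 9) * j + 20 * (E * N))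
            gcongr
        _ = (2:ℝ) ^ (2 * N + 12) * e2 m (-(5 / 9) * j + 20 * (E * N)) := by
            rw [show 2 * N + 12 = (2 * N + 10) + 2 by ring, pow_add (2:ℝ) (2 * N + 10) 2]; ring
        _ ≤ _ := h4
        _ = 1 * e2 m ((2:ℕ) * (-(1 / 9) * j + 8 * (E * N))) := (one_mul _).symm
    have h5 : Real.sqrt (2 * (1 / (1000 * (N:ℝ) ^ 2)) +
        (2 / e2 m (-(1 / 9) * j + 8 * (E * N))) ^ 2 * e2 m (-(5 / 9) * j + 20 * (E * N))) ≤ 55 / (1000 * N) := by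
      rw [Real.sqrt_le_iff]
      refine ⟨by positivity, ?_⟩
      refine (add_le_add le_rfl h2).trans ?_
      have e : (55 / (1000 * (N:ℝ))) ^ 2 = (3025 / 1000) * (1 / (1000 * (N:ℝ) ^ 2)) := by
        field_simp; norm_num
      have hp0 : 0 < 1 / (1000 * (N:ℝ) ^ 2) := by positivity
      rw [e]; linarith
    have h6 : 1 / (1000 * (N:ℝ) ^ 2) ≤ 1 / (1000 * N) := by
      apply one_div_le_one_div_of_le (by positivity)
      nlinarith
    calc _ ≤ 55 / (1000 * (N:ℝ)) + 1 / (1000 * N) := add_le_add h5 h6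
      _ ≤ 6 / (100 * (N:ℝ)) := by
          rw [← add_div, div_le_div_iff₀ (by positivity) (by positivity)]
          nlinarith
  · have hz : ∀ b ∈ Th, ∀ a ∈ Th, ind (e2 m (-(1 / 9) * j + 8 * (E * N)) <
        sm Th (rh Th μ p) v (e2 m (-j + 2 * (E * N))) b a) ≤ 0 := by
      intro b _ a _
      rw [ind_false]
      rw [not_lt]
      calc sm Th (rh Th μ p) v (e2 m (-j + 2 * (E * N))) b a ≤ Ex Th (rh Th μ p) (fun _ => 1) :=
            hpr.mono fun t _ => ind_le_one _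
        _ = 1 := hpr.const 1
        _ = e2 m 0 := (e2_zero m).symm
        _ ≤ _ := e2_le (by linarith)
    calc _ ≤ Ex Th (rh Th μ p) (fun b => Ex Th (rh Th μ p) (fun a => 0)) :=
          hpr.mono fun b hb => hpr.mono fun a ha => hz b hb a ha
      _ = 0 := by rw [hpr.const, hpr.const]
      _ ≤ _ := by positivity

/-- directions of very small weight are rare -/
theorem cfg_small (hC : Cfg kp E d N m P Th v μ) {p : Z3} (hp : 0 < pm Th μ p) :
    Ex Th (rh Th μ p) (fun t => ind (rh Th μ p t < e2 m (-((d + 2 * E) * N)))) ≤ e2 m (-(E * N)) := by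
  have h1 : Ex Th (rh Th μ p) (fun t => ind (rh Th μ p t < e2 m (-((d + 2 * E) * N)))) ≤
      ∑ t ∈ Th, e2 m (-((d + 2 * E) * N)) := by
    unfold Ex
    refine Finset.sum_le_sum fun t _ => ?_
    have h0 : 0 ≤ rh Th μ p t := (pr_of hC hp).nn t
    show rh Th μ p t * ind (rh Th μ p t < e2 m (-((d + 2 * E) * N))) ≤ _
    by_cases h : rh Th μ p t < e2 m (-((d + 2 * E) * N))
    · rw [ind_true h, mul_one]; exact h.le
    · rw [ind_false h, mul_zero]; exact (e2_pos _ _).le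
  refine h1.trans ?_
  rw [Finset.sum_const, nsmul_eq_mul]
  have h2 := hC.th
  rw [e2_eq (m := m) (y := (d + E) * N) (by ring)] at h2
  calc (Th.card : ℝ) * e2 m (-((d + 2 * E) * N)) ≤ e2 m ((d + E) * N) * e2 m (-((d + 2 * E) * N)) :=
        mul_le_mul_of_nonneg_right h2 (e2_pos _ _).le
    _ = e2 m (-(E * N)) := by rw [← e2_add]; congr 1; ring

end

end Vale.Agent.P076.H874
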