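import Vale.Agent.P076.H732.FinDefs

/-!
# P076 / BG / SEL, part 1 (helper874): plane geometry with the cross product
-/

set_option autoImplicit false

namespace Vale.Agent.P076.H874

open Vale.Agent.P076.H732

/-- polar form -/
theorem exists_polar (u : Fin 2 → ℝ) : ∃ l ϑ : ℝ, 0 ≤ l ∧ u 0 = l * Real.cos ϑ ∧ u 1 = l * Real.sin ϑ := by
  refine ⟨‖(⟨u 0, u 1⟩ : ℂ)‖, Complex.arg ⟨u 0, u 1⟩, norm_nonneg _, ?_, ?_⟩
  · rw [Complex.norm_mul_cos_arg]
  · rw [Complex.norm_mul_sin_arg]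

theorem cr_polar (u x : Fin 2 → ℝ) (l ϑ : ℝ) (h0 : u 0 = l * Real.cos ϑ) (h1 : u 1 = l * Real.sin ϑ) :
    cr u x = l * nc ϑ x := by
  unfold cr nc
  rw [h0, h1]; ring

theorem nc_sub (ϑ : ℝ) (u x : Fin 2 → ℝ) : nc ϑ (u - x) = nc ϑ u - nc ϑ x := by
  unfold nc
  simp only [Pi.sub_apply]; ring

/-- Cramer -/
theorem cramer (u u' y : Fin 2 → ℝ) (i : Fin 2) : cr u u' * y i = cr y u' * u i + cr u y * u' i := by
  unfold cr
  fin_cases i
  · simp only [Fin.zero_eta]; ring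
  · simp only [Fin.mk_one]; ring

/-- Pluecker -/
theorem plucker (U U' X X' : Fin 2 → ℝ) : cr U U' * cr X X' = cr U X * cr U' X' - cr U X' * cr U' X := by
  unfold cr; ring

theorem cr_abs_le (u x : Fin 2 → ℝ) (a b : ℝ) (ha : ∀ i, |u i| ≤ a) (hb : ∀ i, |x i| ≤ b) : |cr u x| ≤ 2 * (a * b) := by
  unfold cr
  have h0 := ha 0
  have h1 := ha 1
  have k0 := hb 0
  have k1 := hb 1
  have ha0 : 0 ≤ a := (abs_nonneg _).trans h0
  calc |u 0 * x 1 - u 1 * x 0| ≤ |u 0 * x 1| + |u 1 * x 0| := abs_sub _ _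
    _ = |u 0| * |x 1| + |u 1| * |x 0| := by rw [abs_mul, abs_mul]
    _ ≤ a * b + a * b := by gcongr
    _ = 2 * (a * b) := by ring

/-- two vectors in a thin strip -/
theorem cr_strip (u x : Fin 2 → ℝ) (ϑ a ε : ℝ) (hu : |nc ϑ u| ≤ ε) (hx : |nc ϑ x| ≤ ε) (ha : ∀ i, |u i| ≤ a)
    (hb : ∀ i, |x i| ≤ a) : |cr u x| ≤ 4 * a * ε := by
  have key : cr u x = (Real.cos ϑ * u 0 + Real.sin ϑ * u 1) * nc ϑ x - nc ϑ u * (Real.cos ϑ * x 0 + Real.sin ϑ * x 1) := by
    unfold cr nc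
    have := Real.sin_sq_add_cos_sq ϑ
    linear_combination (u 0 * x 1 - u 1 * x 0) * (-this)
  have tan : ∀ y : Fin 2 → ℝ, (∀ i, |y i| ≤ a) → |Real.cos ϑ * y 0 + Real.sin ϑ * y 1| ≤ 2 * a := by
    intro y hy
    have ha0 : 0 ≤ a := (abs_nonneg _).trans (hy 0)
    calc |Real.cos ϑ * y 0 + Real.sin ϑ * y 1| ≤ |Real.cos ϑ * y 0| + |Real.sin ϑ * y 1| := abs_add_le _ _
      _ = |Real.cos ϑ| * |y 0| + |Real.sin ϑ| * |y 1| := by rw [abs_mul, abs_mul]
      _ ≤ 1 * a + 1 * a := by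
          gcongr
          · exact Real.abs_cos_le_one _
          · exact hy 0
          · exact Real.abs_sin_le_one _
          · exact hy 1
      _ = 2 * a := by ring
  have hε : 0 ≤ ε := (abs_nonneg _).trans hu
  have ha0 : 0 ≤ a := (abs_nonneg _).trans (ha 0)
  rw [key]
  calc _ ≤ |(Real.cos ϑ * u 0 + Real.sin ϑ * u 1) * nc ϑ x| + |nc ϑ u * (Real.cos ϑ * x 0 + Real.sin ϑ * x 1)| := abs_sub _ _
    _ = |Real.cos ϑ * u 0 + Real.sin ϑ * u 1| * |nc ϑ x| + |nc ϑ u| * |Real.cos ϑ * x 0 + Real.sin ϑ * x 1| := by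
        rw [abs_mul, abs_mul]
    _ ≤ (2 * a) * ε + ε * (2 * a) := by
        gcongr
        · exact tan u ha
        · exact tan x hb
    _ = 4 * a * ε := by ring

/-- two strips through `0` meet in a small square -/
theorem strips_meet (u u' y : Fin 2 → ℝ) (w b κ r : ℝ) (hκ : 0 < κ) (hu : ∀ i, |u i| ≤ b) (hu' : ∀ i, |u' i| ≤ b)
    (h1 : |cr u y| ≤ w) (h2 : |cr u' y| ≤ w) (hs : κ ≤ |cr u u'|) (hr : 2 * (w * b) ≤ κ * r) (i : Fin 2) : |y i| ≤ r := by
  have h := cramer u u' y i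
  have hw : 0 ≤ w := (abs_nonneg _).trans h1
  have e : cr y u' = - cr u' y := by unfold cr; ring
  have h3 : κ * |y i| ≤ κ * r := by
    calc κ * |y i| ≤ |cr u u'| * |y i| := by gcongr
      _ = |cr u u' * y i| := (abs_mul _ _).symm
      _ = |cr y u' * u i + cr u y * u' i| := by rw [h]
      _ ≤ |cr y u' * u i| + |cr u y * u' i| := abs_add_le _ _
      _ = |cr u' y| * |u i| + |cr u y| * |u' i| := by rw [abs_mul, abs_mul, e, abs_neg]
      _ ≤ w * b + w * b := by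
          gcongr
          · exact hu i
          · exact hu' i
      _ = 2 * (w * b) := by ring
      _ ≤ κ * r := hr
  exact le_of_mul_le_mul_left h3 hκ

/-- lower bound for the angle of two fat strips which meet at a transversal point.  `U, U'` directions of the strips,
`X, X'` the vectors from the two centres to the point -/
theorem cr_lower (U U' X X' : Fin 2 → ℝ) (B r κ : ℝ) (hr : 0 < r) (hB : 0 < B) (hX : ∀ i, |X i| ≤ 2 * B)
    (hX' : ∀ i, |X' i| ≤ 2 * B) (hU : r ≤ |U 1|) (hU' : r ≤ |U' 1|) (h1 : |cr U X| ≤ κ) (h2 : |cr U' X'| ≤ κ)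
    (h3 : r ^ 2 ≤ |cr X X'|) (hκ : 8 * (κ * B) ≤ r ^ 3) : r ^ 6 ≤ |cr U U'| * (256 * B ^ 4) := by
  have hκ0 : 0 ≤ κ := (abs_nonneg _).trans h1
  -- lower bound for `cr U X'`
  have a1 : r ^ 3 ≤ |cr U X'| * (4 * B) := by
    have h := cramer X X' U 1
    have e : cr X U = - cr U X := by unfold cr; ring
    have : r ^ 2 * r ≤ |cr U X'| * (2 * B) + κ * (2 * B) := by
      calc r ^ 2 * r ≤ |cr X X'| * |U 1| := by gcongr
        _ = |cr X X' * U 1| := (abs_mul _ _).symm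
        _ = |cr U X' * X 1 + cr X U * X' 1| := by rw [h]
        _ ≤ |cr U X' * X 1| + |cr X U * X' 1| := abs_add_le _ _
        _ = |cr U X'| * |X 1| + |cr U X| * |X' 1| := by rw [abs_mul, abs_mul, e, abs_neg]
        _ ≤ |cr U X'| * (2 * B) + κ * (2 * B) := by
            gcongr
            · exact hX 1
            · exact hX' 1
    nlinarith
  have a2 : r ^ 3 ≤ |cr U' X| * (4 * B) := by
    have h := cramer X X' U' 1
    have e : cr X U' = - cr U' X := by unfold cr; ring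
    have : r ^ 2 * r ≤ κ * (2 * B) + |cr U' X| * (2 * B) := by
      calc r ^ 2 * r ≤ |cr X X'| * |U' 1| := by gcongr
        _ = |cr X X' * U' 1| := (abs_mul _ _).symm
        _ = |cr U' X' * X 1 + cr X U' * X' 1| := by rw [h]
        _ ≤ |cr U' X' * X 1| + |cr X U' * X' 1| := abs_add_le _ _
        _ = |cr U' X'| * |X 1| + |cr U' X| * |X' 1| := by rw [abs_mul, abs_mul, e, abs_neg]
        _ ≤ κ * (2 * B) + |cr U' X| * (2 * B) := by
            gcongr
            · exact hX 1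
            · exact hX' 1
    nlinarith
  have a3 : r ^ 6 ≤ |cr U X'| * |cr U' X| * (16 * B ^ 2) := by
    calc r ^ 6 = r ^ 3 * r ^ 3 := by ring
      _ ≤ (|cr U X'| * (4 * B)) * (|cr U' X| * (4 * B)) := by gcongr
      _ = |cr U X'| * |cr U' X| * (16 * B ^ 2) := by ring
  have a4 : |cr U X'| * |cr U' X| - κ ^ 2 ≤ |cr U U'| * (8 * B ^ 2) := by
    have h := plucker U U' X X'
    have c1 : |cr X X'| ≤ 8 * B ^ 2 := by
      have := cr_abs_le X X' (2 * B) (2 * B) hX hX'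
      nlinarith
    have c2 : |cr U X * cr U' X'| ≤ κ ^ 2 := by
      rw [abs_mul, pow_two]; gcongr
    have c3 : |cr U X'| * |cr U' X| ≤ |cr U U' * cr X X'| + |cr U X * cr U' X'| := by
      rw [← abs_mul]
      have : cr U X' * cr U' X = cr U X * cr U' X' - cr U U' * cr X X' := by rw [h]; ring
      rw [this]
      have := abs_sub (cr U X * cr U' X') (cr U U' * cr X X')
      linarith
    rw [abs_mul (cr U U')] at c3
    have c4 : |cr U U'| * |cr X X'| ≤ |cr U U'| * (8 * B ^ 2) := by gcongr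
    linarith
  have a5 : (κ ^ 2) * (16 * B ^ 2) ≤ r ^ 6 / 4 := by
    have : (8 * (κ * B)) * (8 * (κ * B)) ≤ r ^ 3 * r ^ 3 := by gcongr
    nlinarith
  nlinarith [sq_nonneg B, abs_nonneg (cr U U'), mul_nonneg (abs_nonneg (cr U U')) (sq_nonneg (B ^ 2))]

end Vale.Agent.P076.H874
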